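import Vale.Agent.P178.Residues
import Mathlib.GroupTheory.FreeAbelianGroup
import Mathlib.GroupTheory.QuotientGroup.Basic
import Mathlib.Data.DFinsupp.BigOperators
import Mathlib.Data.Fin.Tuple.Basic

/-!
Milnor K-groups of fields, the residue maps from the Milnor K-groups of the fraction field of a
ring of dimension two, and the statement on the last two terms of its Gersten complexes.
-/

namespace Vale.Agent.P178.Two

open IsLocalRing Vale.Agent.P178.Gersten Function

universe u

noncomputable section

section milnor

variable (F : Type u) [Field F] (n : ℕ)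

/-- The relations between the symbols `{a₁, …, aₙ}` of a field: multilinearity, and the
relations of Steinberg. -/
def MilnorRel : AddSubgroup (FreeAbelianGroup (Fin n → Fˣ)) :=
  AddSubgroup.closure {x |
    (∃ (a : Fin n → Fˣ) (i : Fin n) (b c : Fˣ),
      x = .of (update a i (b * c)) - .of (update a i b) - .of (update a i c)) ∨
    ∃ (a : Fin n → Fˣ) (i j : Fin n), i ≠ j ∧ (a i : F) + (a j : F) = 1 ∧ x = .of a}

/-- The Milnor K-group `Kₙ` of a field, written additively. -/
def MilnorK : Type u := FreeAbelianGroup (Fin n → Fˣ) ⧸ MilnorRel F n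

instance instAddCommGroupMilnorK : AddCommGroup (MilnorK F n) :=
  QuotientAddGroup.Quotient.addCommGroup (MilnorRel F n)

variable {F n}

/-- The symbol `{a₁, …, aₙ}`. -/
def symb (a : Fin n → Fˣ) : MilnorK F n := QuotientAddGroup.mk' (MilnorRel F n) (.of a)

end milnor

section ring

variable {A : Type u} [CommRing A] (F : Type u) [Field F] [Algebra A F]

/-- The element `a` of the fraction field `F` of `A` is a unit at the prime `P`, with residue
class `b`: one has `a = r / s` and `b = r̄ / s̄` with `r, s` outside `P`. -/
def IsClass (P : PrimeSpectrum A) (a : Fˣ) (b : (kappa P)ˣ) : Prop :=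
  ∃ r s : A, r ∉ P.asIdeal ∧ s ∉ P.asIdeal ∧ (a : F) * algebraMap A F s = algebraMap A F r ∧
    (b : kappa P) * toKappa P s = toKappa P r

/-- The graph of the residue map (tame symbol) from the `(n + 1)`-st Milnor K-group of the
fraction field `F` to the `n`-th Milnor K-group of the residue field of the prime `P`, generated
by a prime element `p`: the subgroup generated by the pairs `({p, u₁, …, uₙ}, {ū₁, …, ūₙ})`
and `({u₀, …, uₙ}, 0)` with units `uᵢ` at `P`. -/
def resRel (P : PrimeSpectrum A) (n : ℕ) :
    AddSubgroup (MilnorK F (n + 1) × MilnorK (kappa P) n) :=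
  AddSubgroup.closure {z |
    (∃ (p : Fˣ) (q : A) (u : Fin n → Fˣ) (v : Fin n → (kappa P)ˣ),
      P.asIdeal = Ideal.span {q} ∧ (p : F) = algebraMap A F q ∧ (∀ i, IsClass F P (u i) (v i)) ∧
        z = (symb (Fin.cons p u), symb v)) ∨
    ∃ (u : Fin (n + 1) → Fˣ) (v : Fin (n + 1) → (kappa P)ˣ),
      (∀ i, IsClass F P (u i) (v i)) ∧ z = (symb u, 0)}

/-- The direct sum of the `n`-th Milnor K-groups of the residue fields of the primes of height
one. -/
abbrev Fam (A : Type u) [CommRing A] (n : ℕ) : Type u := Π₀ P : Pt A 1, MilnorK (kappa P.P) n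

/-- The image of the `(n + 1)`-st Milnor K-group of `F` under the residue maps. -/
def Bd (A : Type u) [CommRing A] (F : Type u) [Field F] [Algebra A F] (n : ℕ) :
    AddSubgroup (Fam A n) :=
  AddSubgroup.closure {w | ∃ z : MilnorK F (n + 1), ∀ P : Pt A 1, (z, w P) ∈ resRel F P.P n}

/-- The class of a unit of `A` in the residue field of a prime. -/
abbrev ku (P : PrimeSpectrum A) (u : Aˣ) : (kappa P)ˣ :=
  Units.map (toKappa P : A →* kappa P) u

/-- The class of a unit of `A` in the residue field of `A`. -/
abbrev kbar [IsLocalRing A] (u : Aˣ) : (ResidueField A)ˣ :=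
  Units.map (residue A : A →* ResidueField A) u

open Classical in
/-- The symbol `{t, ū₁, …, ūₘ}` of the residue field of `X`, in the direct sum. -/
def symX (X : Pt A 1) (t : (kappa X.P)ˣ) {m : ℕ} (u : Fin m → Aˣ) : Fam A (m + 1) :=
  DFinsupp.single X (symb (Fin.cons t fun i => ku X.P (u i)))

/-- The symbol `{ū₁, …, ūₘ}` of the residue field of `A`. -/
def symk [IsLocalRing A] {m : ℕ} (u : Fin m → Aˣ) : MilnorK (ResidueField A) m :=
  symb fun i => kbar (u i)

/-- The cokernel of the residue maps. -/
def Coker (A : Type u) [CommRing A] (F : Type u) [Field F] [Algebra A F] (n : ℕ) : Type u :=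
  Fam A n ⧸ Bd A F n

instance instAddCommGroupCoker (A : Type u) [CommRing A] (F : Type u) [Field F] [Algebra A F]
    (n : ℕ) : AddCommGroup (Coker A F n) :=
  QuotientAddGroup.Quotient.addCommGroup (Bd A F n)

/-- The class in the cokernel of the residue maps. -/
def toCoker (A : Type u) [CommRing A] (F : Type u) [Field F] [Algebra A F] (n : ℕ) :
    Fam A n →+ Coker A F n := QuotientAddGroup.mk' (Bd A F n)

/-- The elements `x, y` generate the maximal ideal, `X` is the prime generated by `x`, and `t`
is the class of `y` in its residue field. -/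
def IsParam [IsLocalRing A] (x y : A) (X : Pt A 1) (t : (kappa X.P)ˣ) : Prop :=
  maximalIdeal A = Ideal.span {x, y} ∧ X.P.asIdeal = Ideal.span {x} ∧
    (t : kappa X.P) = toKappa X.P y

/-- The cokernel of the residue maps from the `(m + 2)`-nd Milnor K-group of `F` is a quotient
of the `m`-th Milnor K-group of the residue field of `A`, by a homomorphism which takes the
symbol `{ū₁, …, ūₘ}` to the class of the symbol `{ȳ, ū₁, …, ūₘ}` at the prime `(x)`, for all
`x, y` which generate the maximal ideal. -/
def IsQuot (A : Type u) [CommRing A] [IsLocalRing A] (F : Type u) [Field F] [Algebra A F]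
    (m : ℕ) : Prop :=
  ∃ φ : MilnorK (ResidueField A) m →+ Coker A F (m + 1), Surjective φ ∧
    ∀ (x y : A) (X : Pt A 1) (t : (kappa X.P)ˣ), IsParam x y X t →
      ∀ u : Fin m → Aˣ, φ (symk u) = toCoker A F (m + 1) (symX X t u)

/-- If `D` vanishes on the image of the residue maps from the `(m + 2)`-nd Milnor K-group of `F`
and takes the symbols `{ȳ, ū₁, …, ūₘ}` at `(x)` to `{ū₁, …, ūₘ}`, for one pair `x, y` which
generates the maximal ideal, then this image is the kernel of `D`, and `D` is surjective. -/
def IsKer (A : Type u) [CommRing A] [IsLocalRing A] (F : Type u) [Field F] [Algebra A F]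
    (m : ℕ) : Prop :=
  ∀ (D : Fam A (m + 1) →+ MilnorK (ResidueField A) m) (x y : A) (X : Pt A 1)
    (t : (kappa X.P)ˣ), IsParam x y X t → (∀ w ∈ Bd A F (m + 1), D w = 0) →
    (∀ u : Fin m → Aˣ, D (symX X t u) = symk u) →
    (∀ w, D w = 0 → w ∈ Bd A F (m + 1)) ∧ Surjective D

/-- The last two terms of the Gersten complexes of Milnor K-groups of the ring `A` of dimension
two with fraction field `F`. The residue maps are well defined, and the image of the residue
maps from the `(m + 2)`-nd Milnor K-group of `F` is the kernel of the map to the `m`-th Milnor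
K-group of the residue field of `A`. -/
def SurfaceExact (A : Type u) [CommRing A] [IsLocalRing A] (F : Type u) [Field F]
    [Algebra A F] : Prop :=
  (∀ (P : Pt A 1) (n : ℕ) (z : MilnorK F (n + 1)), ∃! r, (z, r) ∈ resRel F P.P n) ∧
    ∀ m : ℕ, IsQuot A F m ∧ IsKer A F m

end ring

end

end Vale.Agent.P178.Two
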