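import Vale.Agent.P178.Two.Res

/-!
The last term of the Gersten complexes of a regular local ring of dimension two.
-/

namespace Vale.Agent.P178.Two

open IsLocalRing Vale.Agent.P178.Gersten

universe u

noncomputable section

section reduce

variable {A : Type u} [CommRing A] [IsLocalRing A] [IsNoetherianRing A]

/-- Every class modulo `q` is a power of `x` times an element outside `(x, q)`. -/
theorem exists_reduce {x q a : A} (hx : x ∈ maximalIdeal A) (hq : Ideal.span {q} ≠ ⊤)
    (ha : a ∉ Ideal.span {q}) :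
    ∃ (k : ℕ) (f : A), a - x ^ k * f ∈ Ideal.span {q} ∧ f ∉ Ideal.span {x} ⊔ Ideal.span {q} := by
  by_contra hcon
  push Not at hcon
  have key : ∀ k : ℕ, ∃ f : A, a - x ^ k * f ∈ Ideal.span {q} := by
    intro k
    induction k with
    | zero => exact ⟨a, by rw [pow_zero, one_mul, sub_self]; exact zero_mem _⟩
    | succ k ih =>
      obtain ⟨f, hf⟩ := ih
      obtain ⟨y, hy, z, hz, hyz⟩ := Submodule.mem_sup.1 (hcon k f hf)
      obtain ⟨c, rfl⟩ := Ideal.mem_span_singleton'.1 hy
      refine ⟨c, ?_⟩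
      have h1 : a - x ^ (k + 1) * c = (a - x ^ k * f) + x ^ k * z := by
        rw [← hyz]; ring
      rw [h1]
      exact add_mem hf (Ideal.mul_mem_left _ _ hz)
  let B := A ⧸ Ideal.span {q}
  have : Nontrivial B := Ideal.Quotient.nontrivial_iff.2 hq
  have : IsLocalRing B := IsLocalRing.of_surjective' (Ideal.Quotient.mk _)
    Ideal.Quotient.mk_surjective
  let y : B := Ideal.Quotient.mk _ x
  have hy : Ideal.span {y} ≠ ⊤ := by
    intro h
    rw [Ideal.span_singleton_eq_top] at h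
    have h1 : IsUnit x := by
      by_contra hnu
      obtain ⟨b, hb⟩ := h.exists_right_inv
      obtain ⟨b, rfl⟩ := Ideal.Quotient.mk_surjective b
      have h2 : 1 - x * b ∈ Ideal.span {q} := by
        rw [← Ideal.Quotient.eq_zero_iff_mem, map_sub, map_one, map_mul]
        exact sub_eq_zero.2 hb.symm
      have h3 : Ideal.span {q} ≤ maximalIdeal A := le_maximalIdeal hq
      have h4 : (1 : A) ∈ maximalIdeal A := by
        have := add_mem (h3 h2) (Ideal.mul_mem_right b _ hx)
        rwa [sub_add_cancel] at this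
      exact (maximalIdeal.isMaximal A).ne_top ((Ideal.eq_top_iff_one _).2 h4)
    exact (maximalIdeal.isMaximal A).ne_top (Ideal.eq_top_of_isUnit_mem _ hx h1)
  have h1 := Ideal.iInf_pow_eq_bot_of_isLocalRing _ hy
  apply ha
  rw [← Ideal.Quotient.eq_zero_iff_mem, ← Ideal.mem_bot, ← h1, Ideal.mem_iInf]
  intro k
  obtain ⟨f, hf⟩ := key k
  have h2 : (Ideal.Quotient.mk (Ideal.span {q}) a : B) = y ^ k * Ideal.Quotient.mk _ f := by
    rw [← map_pow, ← map_mul]
    exact (Ideal.Quotient.mk_eq_mk_iff_sub_mem _ _).2 hf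
  rw [h2, Ideal.span_singleton_pow]
  exact Ideal.mul_mem_right _ _ (Ideal.mem_span_singleton_self _)

end reduce

section boundary

variable {A : Type u} [CommRing A] [IsDomain A] [IsNoetherianRing A] {F : Type u} [Field F]
  [Algebra A F] [IsFractionRing A F]

omit [IsDomain A] [IsNoetherianRing A] in
theorem pt_eq_of_le {Q P : Pt A 1} (h : Q.P.asIdeal ≤ P.P.asIdeal) : Q = P := by
  have h1 : Q.P = P.P := by
    apply PrimeSpectrum.ext
    by_contra hne
    have hlt : Q.P.asIdeal < P.P.asIdeal := lt_of_le_of_ne h hne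
    have h2 := Ideal.height_add_one_le_of_lt_of_isPrime hlt
    rw [P.height, Q.height] at h2
    have h3 : 1 + 1 ≤ 1 := by exact_mod_cast h2
    omega
  cases Q
  cases P
  cases h1
  rfl

/-- A nonzero element lies in finitely many primes of height one. -/
theorem finite_pt {c : A} (hc : c ≠ 0) : {Q : Pt A 1 | c ∈ Q.P.asIdeal}.Finite := by
  have hfin := Ideal.finite_minimalPrimes_of_isNoetherianRing A (Ideal.span {c})
  refine Set.Finite.of_finite_image (f := fun Q : Pt A 1 => Q.P.asIdeal) (hfin.subset ?_) ?_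
  · rintro _ ⟨Q, hQ, rfl⟩
    refine ⟨⟨Q.P.2, (Ideal.span_singleton_le_iff_mem _).2 hQ⟩, ?_⟩
    rintro J ⟨hJ, hcJ⟩ hJQ
    by_contra hne
    have hlt : J < Q.P.asIdeal := lt_of_le_of_ne hJQ fun h => hne h.ge
    have h2 := Ideal.height_add_one_le_of_lt_of_isPrime hlt
    rw [Q.height] at h2
    have h4 : J = ⊥ := by
      by_contra hJ0
      have hlt' : (⊥ : Ideal A) < J := bot_lt_iff_ne_bot.2 hJ0
      have : (⊥ : Ideal A).IsPrime := Ideal.isPrime_bot
      have h5 := Ideal.height_add_one_le_of_lt_of_isPrime hlt'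
      have h6 : (1 : ℕ∞) ≤ J.height := le_trans (by simp) h5
      have h7 : (1 : ℕ∞) + 1 ≤ 1 := le_trans (add_le_add_left h6 1) (by simpa using h2)
      have h8 : 1 + 1 ≤ 1 := by exact_mod_cast h7
      omega
    rw [h4] at hcJ
    exact hc (by simpa using hcJ)
  · intro Q _ Q' _ h
    exact pt_eq_of_le (le_of_eq h)

open Classical in
/-- A boundary with prescribed value at `P`, supported at the primes containing an entry. -/
theorem exists_boundary (hprin : ∀ Q : Pt A 1, ∃ q : A, q ≠ 0 ∧ Q.P.asIdeal = Ideal.span {q})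
    (P : Pt A 1) {q : A} (hq0 : q ≠ 0) (hq : P.P.asIdeal = Ideal.span {q}) (n : ℕ)
    (c : Fin n → A) (hc : ∀ i, c i ∉ P.P.asIdeal) :
    ∃ w ∈ Bd A F n, w P = symb (fun i => kp P.P (c i) (hc i)) ∧
      ∀ Q : Pt A 1, Q ≠ P → (∀ i, c i ∉ Q.P.asIdeal) → w Q = 0 := by
  let z : MilnorK F (n + 1) :=
    symb (Fin.cons (el F q hq0) fun i => el F (c i) (ne_zero_of_notMem (hc i)))
  have htot : ∀ Q : Pt A 1, ∃ r, (z, r) ∈ resRel F Q.P n := by
    intro Q
    obtain ⟨q', hq'0, hq'⟩ := hprin Q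
    exact resRel_total Q.P hq'0 hq' n z
  choose r hr using htot
  have hP : (z, symb (fun i => kp P.P (c i) (hc i))) ∈ resRel F P.P n :=
    AddSubgroup.subset_closure (Or.inl ⟨el F q hq0, q, _, _, hq, rfl,
      fun i => isClass_el (c i) (hc i), rfl⟩)
  let r' : ∀ Q : Pt A 1, MilnorK (Gersten.kappa Q.P) n :=
    Function.update r P (symb (fun i => kp P.P (c i) (hc i)))
  have hr' : ∀ Q, (z, r' Q) ∈ resRel F Q.P n := by
    intro Q
    by_cases hQ : Q = P
    · subst hQ
      simp only [r', Function.update_self]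
      exact hP
    · simp only [r', Function.update_of_ne hQ]
      exact hr Q
  have hfin : (⋃ i, {Q : Pt A 1 | c i ∈ Q.P.asIdeal}).Finite :=
    Set.finite_iUnion fun i => finite_pt (ne_zero_of_notMem (hc i))
  let S : Finset (Pt A 1) := insert P hfin.toFinset
  have hS : ∀ Q : Pt A 1, Q ∉ S → Q ≠ P ∧ ∀ i, c i ∉ Q.P.asIdeal := by
    intro Q hQ
    rw [Finset.mem_insert, Set.Finite.mem_toFinset, Set.mem_iUnion] at hQ
    push Not at hQ
    exact ⟨hQ.1, hQ.2⟩
  have hunit : ∀ Q : Pt A 1, Q ≠ P → (∀ i, c i ∉ Q.P.asIdeal) → (z, 0) ∈ resRel F Q.P n := by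
    intro Q hQP hcQ
    have hqQ : q ∉ Q.P.asIdeal := by
      intro hmem
      exact hQP (pt_eq_of_le (by rw [hq]; exact (Ideal.span_singleton_le_iff_mem _).2 hmem)).symm
    refine AddSubgroup.subset_closure (Or.inr ⟨_, Fin.cons (kp Q.P q hqQ)
      (fun i => kp Q.P (c i) (hcQ i)), fun i => ?_, rfl⟩)
    refine Fin.cases ?_ (fun i => ?_) i
    · exact isClass_el q hqQ
    · exact isClass_el (c i) (hcQ i)
  let w : Fam A n := DFinsupp.mk S fun Q =>
    if (Q : Pt A 1) = P ∨ ∃ i, c i ∈ (Q : Pt A 1).P.asIdeal then r' Q else 0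
  have hw : ∀ Q, w Q = if Q = P ∨ ∃ i, c i ∈ Q.P.asIdeal then r' Q else 0 := by
    intro Q
    simp only [w, DFinsupp.mk_apply]
    by_cases hQ : Q ∈ S
    · rw [dif_pos hQ]
    · rw [dif_neg hQ, if_neg]
      obtain ⟨h1, h2⟩ := hS Q hQ
      rintro (h | ⟨i, hi⟩)
      · exact h1 h
      · exact h2 i hi
  refine ⟨w, AddSubgroup.subset_closure ⟨z, fun Q => ?_⟩, ?_, ?_⟩
  · rw [hw]
    by_cases h : Q = P ∨ ∃ i, c i ∈ Q.P.asIdeal
    · rw [if_pos h]
      exact hr' Q
    · rw [if_neg h]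
      push Not at h
      exact hunit Q h.1 h.2
  · rw [hw, if_pos (Or.inl rfl)]
    simp only [r', Function.update_self]
  · intro Q hQ hcQ
    rw [hw, if_neg]
    rintro (h | ⟨i, hi⟩)
    · exact hQ h
    · exact hcQ i hi

end boundary

end

end Vale.Agent.P178.Two
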