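import Vale.Agent.P178.Two.Uniq

/-!
The last two terms of the Gersten complexes in dimension two.
-/

namespace Vale.Agent.P178.Two

open IsLocalRing Vale.Agent.P178.Gersten Function

universe u

noncomputable section

theorem exists_param (A : Type u) [CommRing A] [IsRegularLocalRing A]
    (hdim : ringKrullDim A = 2) : ∃ x y : A, maximalIdeal A = Ideal.span {x, y} := by
  have h0 := IsRegularLocalRing.spanFinrank_maximalIdeal (R := A)
  have hD : (maximalIdeal A).spanFinrank = 2 := by
    rw [hdim] at h0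
    exact_mod_cast h0
  have hfg : (maximalIdeal A).FG := (maximalIdeal A).fg_of_isNoetherianRing
  have hcard : (maximalIdeal A).generators.ncard = 2 :=
    (Submodule.FG.generators_ncard hfg).trans hD
  obtain ⟨x, y, -, h⟩ := Set.ncard_eq_two.1 hcard
  refine ⟨x, y, ?_⟩
  rw [← h]
  exact (Submodule.span_generators _).symm

section

variable {A : Type u} [CommRing A] [IsRegularLocalRing A] (F : Type u) [Field F] [Algebra A F]
  [IsFractionRing A F] (hdim : ringKrullDim A = 2)

include hdim in
theorem surface_phi (m : ℕ) :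
    ∃ φ : MilnorK (ResidueField A) m →+ Fam A (m + 1) ⧸ Bd A F (m + 1),
      Surjective φ ∧ ∀ (x y : A) (X : Pt A 1) (t : (Gersten.kappa X.P)ˣ), IsParam x y X t →
        ∀ u : Fin m → Aˣ, φ (symb fun i => kbar (u i)) = Psi F X t fun i => ku X.P (u i) := by
  have : IsDomain A := isDomain_of_isRegularLocalRing A
  obtain ⟨x, y, hxy⟩ := exists_param A hdim
  obtain ⟨hp, hht, hx0, hyx, hdom, hdvr⟩ := param hdim hxy
  let X : Pt A 1 := ⟨⟨Ideal.span {x}, hp⟩, hht⟩
  let t : (Gersten.kappa X.P)ˣ := kp X.P y hyx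
  have hprin := hprin_of_regular hdim
  obtain ⟨φ, hφ⟩ := exists_phi F hprin hxy X rfl hx0 t rfl m
  refine ⟨φ, phi_surjective F hprin hxy X rfl hx0 t rfl m φ hφ, ?_⟩
  rintro x' y' X' t' ⟨hxy', hX', ht'⟩ u
  rw [hφ]
  exact Psi_eq F hdim hxy hxy' X X' rfl hX' t rfl t' ht' u

include hdim in
theorem surface_quot (m : ℕ) : IsQuot A F m := surface_phi F hdim m

include hdim in
theorem surface_ker (m : ℕ) : IsKer A F m := by
  intro D x y X t h hD hu
  obtain ⟨φ, hφs, hφ⟩ := surface_phi F hdim m
  let D' : Fam A (m + 1) ⧸ Bd A F (m + 1) →+ MilnorK (ResidueField A) m :=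
    QuotientAddGroup.lift (Bd A F (m + 1)) D hD
  have hD' : ∀ w, D' (QuotientAddGroup.mk' (Bd A F (m + 1)) w) = D w := fun w => rfl
  have hid : ∀ z, D' (φ z) = z := by
    intro z
    have h1 : z ∈ AddMonoidHom.eqLocus (D'.comp φ) (AddMonoidHom.id _) := by
      refine mem_of_symb_mem _ (fun a => ?_) z
      choose lift hlift using exists_unit_lift (A := A)
      have h2 : a = fun i => kbar (lift (a i)) := funext fun i => (hlift (a i)).symm
      change D' (φ (symb a)) = symb a
      rw [h2, hφ x y X t h, Psi, hD']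
      exact hu _
    exact h1
  constructor
  · intro w hw
    obtain ⟨z, hz⟩ := hφs (QuotientAddGroup.mk' (Bd A F (m + 1)) w)
    have h1 : z = 0 := by
      rw [← hid z, hz, hD']
      exact hw
    rw [h1, map_zero] at hz
    exact (QuotientAddGroup.eq_zero_iff w).1 hz.symm
  · intro z
    obtain ⟨w, hw⟩ := QuotientAddGroup.mk'_surjective (Bd A F (m + 1)) (φ z)
    refine ⟨w, ?_⟩
    rw [← hD', hw, hid]

end

end

end Vale.Agent.P178.Two
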