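import Vale.Agent.P178.Two.Phi

/-!
The homomorphism from the Milnor K-group of the closed point, and its surjectivity.
-/

namespace Vale.Agent.P178.Two

open IsLocalRing Vale.Agent.P178.Gersten Function

universe u

noncomputable section

variable {A : Type u} [CommRing A] [IsDomain A] [IsLocalRing A] [IsNoetherianRing A]
  (F : Type u) [Field F] [Algebra A F] [IsFractionRing A F]
  (hprin : ∀ Q : Pt A 1, ∃ q : A, q ≠ 0 ∧ Q.P.asIdeal = Ideal.span {q})
  {x y : A} (hxy : maximalIdeal A = Ideal.span {x, y})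
  (X : Pt A 1) (hX : X.P.asIdeal = Ideal.span {x}) (hx0 : x ≠ 0)
  [IsDomain (A ⧸ Ideal.span {x})] [IsDiscreteValuationRing (A ⧸ Ideal.span {x})]
  (t : (Gersten.kappa X.P)ˣ) (ht : (t : Gersten.kappa X.P) = Gersten.toKappa X.P y)

omit [IsDomain A] [IsNoetherianRing A] in
theorem exists_unit_lift (a : (ResidueField A)ˣ) : ∃ u : Aˣ, kbar u = a := by
  obtain ⟨r, hr⟩ := residue_surjective (a : ResidueField A)
  have hu : IsUnit r := by
    rw [← residue_ne_zero_iff_isUnit, hr]
    exact a.ne_zero
  obtain ⟨u, rfl⟩ := hu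
  exact ⟨u, Units.ext hr⟩

omit [IsDomain A] [IsNoetherianRing A] in
theorem sub_mem_of_kbar {u v : Aˣ} (h : kbar u = kbar v) : (u : A) - v ∈ maximalIdeal A := by
  rw [← residue_eq_zero_iff, map_sub, sub_eq_zero]
  exact congrArg Units.val h

omit [IsDomain A] [IsLocalRing A] [IsNoetherianRing A] in
theorem ku_update {m : ℕ} (P : PrimeSpectrum A) (u : Fin m → Aˣ) (i : Fin m) (p : Aˣ) :
    (fun j => ku P (update u i p j)) = update (fun j => ku P (u j)) i (ku P p) := by
  funext j
  by_cases hj : j = i
  · subst hj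
    rw [update_self, update_self]
  · rw [update_of_ne hj, update_of_ne hj]

include hprin hxy hX hx0 ht in
theorem exists_phi (m : ℕ) :
    ∃ φ : MilnorK (ResidueField A) m →+ Fam A (m + 1) ⧸ Bd A F (m + 1),
      ∀ u : Fin m → Aˣ, φ (symb fun i => kbar (u i)) = Psi F X t (fun j => ku X.P (u j)) := by
  choose lift hlift using exists_unit_lift (A := A)
  have hcongr := fun (u u' : Fin m → Aˣ) (h : ∀ i, kbar (u i) = kbar (u' i)) =>
    Psi_congr F hprin hxy X hX hx0 t ht u u' fun i => sub_mem_of_kbar (h i)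
  have hupd : ∀ (a : Fin m → (ResidueField A)ˣ) (i : Fin m) (b : (ResidueField A)ˣ),
      (fun j => lift (update a i b j)) = update (fun j => lift (a j)) i (lift b) := by
    intro a i b
    funext j
    by_cases hj : j = i
    · subst hj
      rw [update_self, update_self]
    · rw [update_of_ne hj, update_of_ne hj]
  let f : (Fin m → (ResidueField A)ˣ) → Fam A (m + 1) ⧸ Bd A F (m + 1) := fun a =>
    Psi F X t (fun j => ku X.P (lift (a j)))
  have h1 : ∀ (a : Fin m → (ResidueField A)ˣ) (i : Fin m) (b c : (ResidueField A)ˣ),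
      f (update a i (b * c)) = f (update a i b) + f (update a i c) := by
    intro a i b c
    have e : ∀ b, f (update a i b) =
        Psi F X t (update (fun j => ku X.P (lift (a j))) i (ku X.P (lift b))) := by
      intro b
      rw [← ku_update X.P (fun j => lift (a j)) i (lift b)]
      have := hupd a i b
      simp only [← this]
      rfl
    rw [e b, e c, ← Psi_update_mul, ← map_mul,
      ← ku_update X.P (fun j => lift (a j)) i (lift b * lift c)]
    refine hcongr _ _ fun j => ?_
    by_cases hj : j = i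
    · subst hj
      have h3 : kbar (lift b * lift c) = kbar (lift b) * kbar (lift c) := map_mul _ _ _
      rw [update_self, update_self, hlift, h3, hlift, hlift]
    · rw [update_of_ne hj, update_of_ne hj]
  have h2 : ∀ (a : Fin m → (ResidueField A)ˣ) (i j : Fin m), i ≠ j →
      (a i : ResidueField A) + (a j : ResidueField A) = 1 → f a = 0 := by
    intro a i j hij h
    have h2 : residue A (lift (a i) : A) = (a i : ResidueField A) :=
      congrArg Units.val (hlift (a i))
    have h1 : IsUnit (1 - (lift (a i) : A)) := by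
      rw [← residue_ne_zero_iff_isUnit, map_sub, map_one, h2, ← h, add_sub_cancel_left]
      exact (a j).ne_zero
    obtain ⟨w, hw⟩ := h1
    have h3 : kbar w = a j := by
      ext
      change residue A (w : A) = a j
      rw [hw, map_sub, map_one, h2, ← h, add_sub_cancel_left]
    change Psi F X t (fun l => ku X.P (lift (a l))) = 0
    have h4 : ∀ l, kbar (lift (a l)) = kbar (update (fun l => lift (a l)) j w l) := by
      intro l
      by_cases hl : l = j
      · subst hl
        rw [update_self, hlift, h3]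
      · rw [update_of_ne hl]
    rw [hcongr (fun l => lift (a l)) (update (fun l => lift (a l)) j w) h4]
    refine Psi_steinberg F X t _ i j hij ?_
    rw [update_self, update_of_ne hij]
    change Gersten.toKappa X.P (lift (a i) : A) + Gersten.toKappa X.P (w : A) = 1
    rw [← map_add, hw, add_sub_cancel, map_one]
  obtain ⟨φ, hφ⟩ := exists_hom f h1 h2
  refine ⟨φ, fun u => ?_⟩
  rw [hφ]
  exact hcongr _ _ fun i => hlift _

omit [IsDomain A] in
include hxy in
/-- The elements outside `(x)`, modulo `x`. -/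
theorem exists_pow_mul (r : A) (hr : r ∉ Ideal.span {x}) :
    ∃ (i : ℕ) (u : Aˣ), r - y ^ i * u ∈ Ideal.span {x} := by
  have hmax : maximalIdeal (A ⧸ Ideal.span {x}) = Ideal.span {Ideal.Quotient.mk _ y} := by
    have h1 : maximalIdeal (A ⧸ Ideal.span {x}) =
        (maximalIdeal A).map (Ideal.Quotient.mk (Ideal.span {x})) := by
      symm
      apply IsLocalRing.eq_maximalIdeal
      refine Ideal.IsMaximal.map_of_surjective_of_ker_le Ideal.Quotient.mk_surjective ?_
      rw [Ideal.mk_ker, hxy, Ideal.span_singleton_le_iff_mem]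
      exact Ideal.subset_span (by simp)
    rw [h1, hxy, Ideal.map_span, Set.image_pair, Ideal.Quotient.eq_zero_iff_mem.2
      (Ideal.mem_span_singleton_self x)]
    rw [Ideal.span_insert_zero]
  have hirr : Irreducible (Ideal.Quotient.mk (Ideal.span {x}) y) :=
    (IsDiscreteValuationRing.irreducible_iff_uniformizer _).2 hmax
  have hr0 : Ideal.Quotient.mk (Ideal.span {x}) r ≠ 0 := fun h =>
    hr (Ideal.Quotient.eq_zero_iff_mem.1 h)
  obtain ⟨i, v, hv⟩ := IsDiscreteValuationRing.eq_unit_mul_pow_irreducible hr0 hirr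
  obtain ⟨c, hc⟩ := Ideal.Quotient.mk_surjective (v : A ⧸ Ideal.span {x})
  have hloc : IsLocalHom (Ideal.Quotient.mk (Ideal.span {x})) :=
    IsLocalHom.of_surjective _ Ideal.Quotient.mk_surjective
  have hcu : IsUnit c := by
    apply isUnit_of_map_unit (Ideal.Quotient.mk (Ideal.span {x}))
    rw [hc]
    exact v.isUnit
  obtain ⟨u, rfl⟩ := hcu
  refine ⟨i, u, ?_⟩
  rw [← Ideal.Quotient.mk_eq_mk_iff_sub_mem, map_mul, map_pow, hc, hv, mul_comm]

include hprin hxy hX hx0 ht in
theorem phi_surjective (m : ℕ)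
    (φ : MilnorK (ResidueField A) m →+ Fam A (m + 1) ⧸ Bd A F (m + 1))
    (hφ : ∀ u : Fin m → Aˣ, φ (symb fun i => kbar (u i)) = Psi F X t (fun j => ku X.P (u j))) :
    Surjective φ := by
  classical
  have hxm : x ∈ maximalIdeal A := by rw [hxy]; exact Ideal.subset_span (by simp)
  let R : AddSubgroup (Fam A (m + 1)) := φ.range.comap (QuotientAddGroup.mk' (Bd A F (m + 1)))
  have hBd : Bd A F (m + 1) ≤ R := by
    intro w hw
    rw [AddSubgroup.mem_comap, QuotientAddGroup.mk'_apply, (QuotientAddGroup.eq_zero_iff w).2 hw]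
    exact zero_mem _
  have hXR : ∀ z : MilnorK (Gersten.kappa X.P) (m + 1),
      (DFinsupp.single X z : Fam A (m + 1)) ∈ R := by
    intro z
    let G : AddSubgroup (MilnorK (Gersten.kappa X.P) (m + 1)) :=
      R.comap (DFinsupp.singleAddHom (fun P : Pt A 1 => MilnorK (Gersten.kappa P.P) (m + 1)) X)
    have hG : ∀ z, z ∈ G ↔ (DFinsupp.single X z : Fam A (m + 1)) ∈ R := fun z => Iff.rfl
    rw [← hG]
    refine gen_mem (Units.map (Gersten.toKappa X.P : A →* Gersten.kappa X.P)).range
      ⟨-1, ?_⟩ t ?_ m G ?_ ?_ z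
    · ext
      exact (map_neg (Gersten.toKappa X.P) 1).trans (by rw [map_one]; rfl)
    · have hone : ∀ (r : A) (hr : r ∉ X.P.asIdeal), ∃ (i : ℕ) (u : Aˣ),
          kp X.P r hr = t ^ i * ku X.P u := by
        intro r hr
        obtain ⟨i, u, hu⟩ := exists_pow_mul hxy r (by rw [← hX]; exact hr)
        refine ⟨i, u, Units.ext ?_⟩
        rw [← hX, ← toKappa_eq_zero_iff, map_sub, sub_eq_zero, map_mul, map_pow] at hu
        rw [kp_val, Units.val_mul, Units.val_pow_eq_pow_val, ht]
        exact hu
      intro a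
      obtain ⟨r, s, hr, hs, h⟩ := exists_kp X.P a
      obtain ⟨i, u, hu⟩ := hone r hr
      obtain ⟨j, v, hv⟩ := hone s hs
      refine ⟨(i : ℤ) - j, ku X.P (u * v⁻¹), ⟨_, rfl⟩, ?_⟩
      have h3 : ku X.P (u * v⁻¹) = ku X.P u * (ku X.P v)⁻¹ := by
        change Units.map _ (u * v⁻¹) = Units.map _ u * (Units.map _ v)⁻¹
        rw [map_mul, map_inv]
      rw [h, hu, hv, zpow_sub, zpow_natCast, zpow_natCast, mul_inv, h3]
      exact mul_mul_mul_comm _ _ _ _
    · intro u hu
      choose v hv using hu
      rw [hG]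
      apply hBd
      have h1 := unit_boundary F hprin X hX hx0 (m + 1) v
      have h2 : (fun i => ku X.P (v i)) = u := funext hv
      rw [h2] at h1
      exact h1
    · intro u hu
      choose v hv using hu
      rw [hG]
      refine ⟨symb fun i => kbar (v i), ?_⟩
      have h2 : (fun i => ku X.P (v i)) = u := funext hv
      rw [hφ, h2]
      rfl
  have hall : ∀ w, w ∈ R := by
    intro w
    rw [← DFinsupp.sum_single (f := w)]
    refine sum_mem fun P _ => ?_
    have h := single_mem_sup F hprin hxm X hX (m + 1) P (w P)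
    exact (sup_le hBd (by rintro _ ⟨z, rfl⟩; exact hXR z)) h
  intro c
  obtain ⟨w, rfl⟩ := QuotientAddGroup.mk'_surjective _ c
  exact hall w

end

end Vale.Agent.P178.Two
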