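import Vale.Agent.P178.Two.Dim2

/-!
The last term of the Gersten complexes of a regular local ring of dimension two.
-/

namespace Vale.Agent.P178.Two

open IsLocalRing Vale.Agent.P178.Gersten

universe u

noncomputable section

open Classical in
/-- A member of a direct sum is in a subgroup if all its other components are. -/
theorem single_mem_of {ι : Type*} {β : ι → Type*} [∀ i, AddCommGroup (β i)]
    (H : AddSubgroup (Π₀ i, β i)) (w : Π₀ i, β i) (hw : w ∈ H) (P : ι)
    (h : ∀ Q, Q ≠ P → DFinsupp.single Q (w Q) ∈ H) : DFinsupp.single P (w P) ∈ H := by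
  have h1 : w = ∑ Q ∈ w.support, DFinsupp.single Q (w Q) := (DFinsupp.sum_single (f := w)).symm
  by_cases hP : P ∈ w.support
  · rw [← Finset.add_sum_erase _ _ hP] at h1
    have h2 : DFinsupp.single P (w P) =
        w - ∑ Q ∈ w.support.erase P, DFinsupp.single Q (w Q) := by
      rw [eq_sub_iff_add_eq]
      exact h1.symm
    rw [h2]
    exact sub_mem hw (sum_mem fun Q hQ => h Q (Finset.ne_of_mem_erase hQ))
  · rw [DFinsupp.notMem_support_iff.1 hP, DFinsupp.single_zero]
    exact zero_mem _

section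

variable {A : Type u} [CommRing A] [IsDomain A] [IsLocalRing A] [IsNoetherianRing A]
  (F : Type u) [Field F] [Algebra A F] [IsFractionRing A F]
  (hprin : ∀ Q : Pt A 1, ∃ q : A, q ≠ 0 ∧ Q.P.asIdeal = Ideal.span {q})
  {x : A} (hx : x ∈ maximalIdeal A) (X : Pt A 1) (hX : X.P.asIdeal = Ideal.span {x})
  [IsDomain (A ⧸ Ideal.span {x})] [IsDiscreteValuationRing (A ⧸ Ideal.span {x})]

open Classical in
include hprin hx hX in
theorem single_mem_sup (n : ℕ) (P : Pt A 1) (z : MilnorK (Gersten.kappa P.P) n) :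
    (DFinsupp.single P z : Fam A n) ∈ Bd A F n ⊔
      (DFinsupp.singleAddHom (fun P : Pt A 1 => MilnorK (Gersten.kappa P.P) n) X).range := by
  let H : AddSubgroup (Fam A n) := Bd A F n ⊔
      (DFinsupp.singleAddHom (fun P : Pt A 1 => MilnorK (Gersten.kappa P.P) n) X).range
  choose gen hgen0 hgen using hprin
  let wt : Pt A 1 → ℕ∞ := fun Q =>
    IsDiscreteValuationRing.addVal (A ⧸ Ideal.span {x}) (Ideal.Quotient.mk _ (gen Q))
  have hXH : ∀ z : MilnorK (Gersten.kappa X.P) n, (DFinsupp.single X z : Fam A n) ∈ H := fun z =>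
    AddSubgroup.mem_sup_right ⟨z, rfl⟩
  suffices h : ∀ (k : ℕ∞) (P : Pt A 1), wt P = k → ∀ z : MilnorK (Gersten.kappa P.P) n,
      (DFinsupp.single P z : Fam A n) ∈ H from h _ P rfl z
  intro k
  induction k using WellFoundedLT.induction with
  | ind k ih =>
    intro P hk z
    by_cases hPX : P = X
    · subst hPX
      exact hXH z
    let G : AddSubgroup (MilnorK (Gersten.kappa P.P) n) :=
      H.comap (DFinsupp.singleAddHom (fun P : Pt A 1 => MilnorK (Gersten.kappa P.P) n) P)
    have hG : ∀ z, z ∈ G ↔ (DFinsupp.single P z : Fam A n) ∈ H := fun z => Iff.rfl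
    let S : Set (Gersten.kappa P.P)ˣ := {a | ∃ (c : A) (hc : c ∉ P.P.asIdeal), a = kp P.P c hc ∧
      ∀ Q : Pt A 1, Q ≠ X → c ∈ Q.P.asIdeal → wt Q < wt P}
    -- each class is a quotient of elements of `S`
    have hred : ∀ (r : A) (hr : r ∉ P.P.asIdeal), kp P.P r hr ∈ S := by
      intro r hr
      have hr' : r ∉ Ideal.span {gen P} := by rw [← hgen P]; exact hr
      obtain ⟨i, f, h1, h2⟩ := exists_reduce hx (by rw [← hgen P]; exact P.P.2.ne_top) hr'
      have hc : x ^ i * f ∉ P.P.asIdeal := by
        intro hmem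
        apply hr
        rw [hgen P] at hmem ⊢
        have := add_mem h1 hmem
        rwa [sub_add_cancel] at this
      refine ⟨x ^ i * f, hc, ?_, ?_⟩
      · ext
        rw [kp_val, kp_val, ← sub_eq_zero, ← map_sub, toKappa_eq_zero_iff, hgen P]
        exact h1
      · intro Q hQX hQ
        have hxQ : x ∉ Q.P.asIdeal := by
          intro hmem
          exact hQX (pt_eq_of_le (by rw [hX]; exact (Ideal.span_singleton_le_iff_mem _).2 hmem)).symm
        have hfQ : f ∈ Q.P.asIdeal := by
          rcases Q.P.2.mem_or_mem hQ with h | h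
          · exact absurd (Q.P.2.mem_of_pow_mem i h) hxQ
          · exact h
        rw [hgen Q, Ideal.mem_span_singleton] at hfQ
        have h3 : wt Q ≤ IsDiscreteValuationRing.addVal (A ⧸ Ideal.span {x})
            (Ideal.Quotient.mk _ f) :=
          IsDiscreteValuationRing.addVal_le_iff_dvd.2 (map_dvd _ hfQ)
        refine lt_of_le_of_lt h3 ?_
        rw [← not_le]
        intro h4
        have h5 : (Ideal.Quotient.mk (Ideal.span {x}) (gen P)) ∣ Ideal.Quotient.mk _ f :=
          IsDiscreteValuationRing.addVal_le_iff_dvd.1 h4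
        obtain ⟨b, hb⟩ := h5
        obtain ⟨b, rfl⟩ := Ideal.Quotient.mk_surjective b
        rw [← map_mul] at hb
        have h6 : f - gen P * b ∈ Ideal.span {x} := (Ideal.Quotient.mk_eq_mk_iff_sub_mem _ _).1 hb
        apply h2
        have h7 : f = (f - gen P * b) + gen P * b := by ring
        rw [h7]
        exact add_mem (Ideal.mem_sup_left h6)
          (Ideal.mem_sup_right (Ideal.mul_mem_right _ _ (Ideal.mem_span_singleton_self _)))
    have hS : ∀ a : (Gersten.kappa P.P)ˣ, ∃ s ∈ S, ∃ s' ∈ S, a = s * s'⁻¹ := by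
      intro a
      obtain ⟨r, s, hr, hs, h⟩ := exists_kp P.P a
      exact ⟨_, hred r hr, _, hred s hs, h⟩
    refine (hG z).1 (gens_quot S hS n G (fun u hu => ?_) z)
    choose c hc huc hcS using hu
    obtain ⟨w, hw, hwP, hwQ⟩ := exists_boundary (F := F)
      (fun Q => ⟨gen Q, hgen0 Q, hgen Q⟩) P (hgen0 P) (hgen P) n c hc
    have hu' : symb u = w P := by
      rw [hwP]
      congr 1
      funext i
      exact huc i
    rw [hG, hu']
    refine single_mem_of H w (AddSubgroup.mem_sup_left hw) P fun Q hQ => ?_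
    by_cases hcQ : ∀ i, c i ∉ Q.P.asIdeal
    · rw [hwQ Q hQ hcQ, DFinsupp.single_zero]
      exact zero_mem _
    · push Not at hcQ
      obtain ⟨i, hi⟩ := hcQ
      by_cases hQX : Q = X
      · subst hQX
        exact hXH _
      · exact ih (wt Q) (by rw [← hk]; exact hcS i Q hQX hi) Q rfl _

end

end

end Vale.Agent.P178.Two
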