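import Vale.Agent.P178.Two.Defs
import Mathlib.Tactic

/-!
Milnor K-groups of fields.
-/

namespace Vale.Agent.P178.Two

universe u

open Function

section basic

variable {F : Type u} [Field F] {n : ℕ}

theorem symb_update_mul (a : Fin n → Fˣ) (i : Fin n) (b c : Fˣ) :
    symb (update a i (b * c)) = symb (update a i b) + symb (update a i c) := by
  have h : (QuotientAddGroup.mk' (MilnorRel F n)
      (.of (update a i (b * c)) - .of (update a i b) - .of (update a i c)) : MilnorK F n) = 0 :=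
    (QuotientAddGroup.eq_zero_iff _).2 (AddSubgroup.subset_closure (Or.inl ⟨a, i, b, c, rfl⟩))
  rw [map_sub, map_sub, sub_sub, sub_eq_zero] at h
  exact h

theorem symb_steinberg (a : Fin n → Fˣ) (i j : Fin n) (hij : i ≠ j)
    (h : (a i : F) + (a j : F) = 1) : symb a = 0 :=
  (QuotientAddGroup.eq_zero_iff _).2 (AddSubgroup.subset_closure (Or.inr ⟨a, i, j, hij, h, rfl⟩))

theorem symb_update_one (a : Fin n → Fˣ) (i : Fin n) : symb (update a i 1) = 0 := by
  have h := symb_update_mul a i 1 1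
  rw [mul_one] at h
  exact left_eq_add.1 h

theorem symb_update_inv (a : Fin n → Fˣ) (i : Fin n) (b : Fˣ) :
    symb (update a i b⁻¹) = - symb (update a i b) := by
  have h := symb_update_mul a i b⁻¹ b
  rw [inv_mul_cancel, symb_update_one] at h
  exact eq_neg_of_add_eq_zero_left h.symm

theorem symb_update_pow (a : Fin n → Fˣ) (i : Fin n) (b : Fˣ) (k : ℕ) :
    symb (update a i (b ^ k)) = k • symb (update a i b) := by
  induction k with
  | zero => rw [pow_zero, symb_update_one, zero_smul]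
  | succ k ih => rw [pow_succ, symb_update_mul, ih, succ_nsmul]

theorem symb_update_zpow (a : Fin n → Fˣ) (i : Fin n) (b : Fˣ) (k : ℤ) :
    symb (update a i (b ^ k)) = k • symb (update a i b) := by
  cases k with
  | ofNat k => rw [Int.ofNat_eq_natCast, zpow_natCast, symb_update_pow, natCast_zsmul]
  | negSucc k => rw [zpow_negSucc, symb_update_inv, symb_update_pow, negSucc_zsmul]

/-- Symbols generate. -/
theorem mem_of_symb_mem (G : AddSubgroup (MilnorK F n)) (h : ∀ a : Fin n → Fˣ, symb a ∈ G)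
    (z : MilnorK F n) : z ∈ G := by
  obtain ⟨z, rfl⟩ := QuotientAddGroup.mk'_surjective (MilnorRel F n) z
  induction z using FreeAbelianGroup.induction_on with
  | zero => rw [map_zero]; exact zero_mem _
  | of x => exact h x
  | neg x hx => rw [map_neg]; exact neg_mem hx
  | add x y hx hy => rw [map_add]; exact add_mem hx hy

/-- A homomorphism on `Kₙ` given on symbols. -/
theorem exists_hom {H : Type*} [AddCommGroup H] (f : (Fin n → Fˣ) → H)
    (h1 : ∀ (a : Fin n → Fˣ) (i : Fin n) (b c : Fˣ),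
      f (update a i (b * c)) = f (update a i b) + f (update a i c))
    (h2 : ∀ (a : Fin n → Fˣ) (i j : Fin n), i ≠ j → (a i : F) + (a j : F) = 1 → f a = 0) :
    ∃ φ : MilnorK F n →+ H, ∀ a, φ (symb a) = f a := by
  refine ⟨QuotientAddGroup.lift (MilnorRel F n) (FreeAbelianGroup.lift f) ?_, fun a => ?_⟩
  · rw [MilnorRel, AddSubgroup.closure_le]
    rintro _ (⟨a, i, b, c, rfl⟩ | ⟨a, i, j, hij, h, rfl⟩)
    · rw [SetLike.mem_coe, AddMonoidHom.mem_ker, map_sub, map_sub, FreeAbelianGroup.lift_apply_of,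
        FreeAbelianGroup.lift_apply_of, FreeAbelianGroup.lift_apply_of, h1]
      abel
    · rw [SetLike.mem_coe, AddMonoidHom.mem_ker, FreeAbelianGroup.lift_apply_of]
      exact h2 a i j hij h
  · exact FreeAbelianGroup.lift_apply_of _ _

/-- Multiplication by a symbol of degree one. -/
theorem exists_cup (a : Fˣ) :
    ∃ φ : MilnorK F n →+ MilnorK F (n + 1), ∀ v, φ (symb v) = symb (Fin.cons a v) := by
  refine exists_hom (fun v => symb (Fin.cons a v)) (fun v i b c => ?_) (fun v i j hij h => ?_)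
  · rw [Fin.cons_update, Fin.cons_update, Fin.cons_update]
    exact symb_update_mul _ _ _ _
  · exact symb_steinberg _ i.succ j.succ (fun h => hij (Fin.succ_injective _ h)) (by
      rw [Fin.cons_succ, Fin.cons_succ]; exact h)

theorem symb_cons_mul (a b : Fˣ) (v : Fin n → Fˣ) :
    symb (Fin.cons (a * b) v : Fin (n + 1) → Fˣ) =
      symb (Fin.cons a v : Fin (n + 1) → Fˣ) + symb (Fin.cons b v : Fin (n + 1) → Fˣ) := by
  have h := symb_update_mul (Fin.cons a v : Fin (n + 1) → Fˣ) 0 a b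
  rwa [Fin.update_cons_zero, Fin.update_cons_zero, Fin.update_cons_zero] at h

theorem symb_cons_inv (a : Fˣ) (v : Fin n → Fˣ) :
    symb (Fin.cons a⁻¹ v : Fin (n + 1) → Fˣ) = - symb (Fin.cons a v : Fin (n + 1) → Fˣ) := by
  have h := symb_update_inv (Fin.cons a v : Fin (n + 1) → Fˣ) 0 a
  rwa [Fin.update_cons_zero, Fin.update_cons_zero] at h

theorem symb_cons_zpow (a : Fˣ) (k : ℤ) (v : Fin n → Fˣ) :
    symb (Fin.cons (a ^ k) v : Fin (n + 1) → Fˣ) =
      k • symb (Fin.cons a v : Fin (n + 1) → Fˣ) := by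
  have h := symb_update_zpow (Fin.cons a v : Fin (n + 1) → Fˣ) 0 a k
  rwa [Fin.update_cons_zero, Fin.update_cons_zero] at h

theorem symb_cons_cons_mul (x a b : Fˣ) (v : Fin n → Fˣ) :
    symb (Fin.cons x (Fin.cons (a * b) v : Fin (n + 1) → Fˣ) : Fin (n + 2) → Fˣ) =
      symb (Fin.cons x (Fin.cons a v : Fin (n + 1) → Fˣ) : Fin (n + 2) → Fˣ) +
        symb (Fin.cons x (Fin.cons b v : Fin (n + 1) → Fˣ) : Fin (n + 2) → Fˣ) := by
  obtain ⟨φ, hφ⟩ := exists_cup (n := n + 1) x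
  rw [← hφ, ← hφ, ← hφ, symb_cons_mul, map_add]

theorem symb_cons_cons_inv (x a : Fˣ) (v : Fin n → Fˣ) :
    symb (Fin.cons x (Fin.cons a⁻¹ v : Fin (n + 1) → Fˣ) : Fin (n + 2) → Fˣ) =
      - symb (Fin.cons x (Fin.cons a v : Fin (n + 1) → Fˣ) : Fin (n + 2) → Fˣ) := by
  obtain ⟨φ, hφ⟩ := exists_cup (n := n + 1) x
  rw [← hφ, ← hφ, symb_cons_inv, map_neg]

theorem symb_cons_cons_one (x : Fˣ) (v : Fin n → Fˣ) :
    symb (Fin.cons x (Fin.cons 1 v : Fin (n + 1) → Fˣ) : Fin (n + 2) → Fˣ) = 0 := by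
  have h := symb_cons_cons_mul x 1 1 v
  rw [mul_one] at h
  exact left_eq_add.1 h

theorem symb_cons_one (v : Fin n → Fˣ) : symb (Fin.cons 1 v : Fin (n + 1) → Fˣ) = 0 := by
  have h := symb_cons_mul 1 1 v
  rw [mul_one] at h
  exact left_eq_add.1 h

/-- `{a, -a, …} = 0`. -/
theorem symb_neg_self (a : Fˣ) (v : Fin n → Fˣ) :
    symb (Fin.cons a (Fin.cons (-a) v : Fin (n + 1) → Fˣ) : Fin (n + 2) → Fˣ) = 0 := by
  by_cases h1 : a = 1
  · rw [h1, symb_cons_one]
  have h1' : (1 : F) - a ≠ 0 := by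
    intro h
    exact h1 (Units.ext (sub_eq_zero.1 h).symm)
  have h2' : (1 : F) - (a⁻¹ : Fˣ) ≠ 0 := by
    intro h
    apply h1
    have h3 : ((a⁻¹ : Fˣ) : F) = 1 := (sub_eq_zero.1 h).symm
    have h4 : a⁻¹ = 1 := Units.ext h3
    exact inv_eq_one.1 h4
  let x : Fˣ := Units.mk0 _ h1'
  let y : Fˣ := Units.mk0 _ h2'
  have h3 : -a = x * y⁻¹ := by
    ext
    rw [Units.val_neg, Units.val_mul, Units.val_inv_eq_inv_val]
    change -(a : F) = (1 - a) * (1 - ((a⁻¹ : Fˣ) : F))⁻¹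
    rw [eq_mul_inv_iff_mul_eq₀ h2', mul_sub, neg_mul a.val ((a⁻¹ : Fˣ) : F), Units.mul_inv]
    ring
  have h01 : (0 : Fin (n + 2)) ≠ 1 := by
    intro h
    have := congrArg Fin.val h
    simp at this
  have h4 : symb (Fin.cons a (Fin.cons x v : Fin (n + 1) → Fˣ) : Fin (n + 2) → Fˣ) = 0 :=
    symb_steinberg _ 0 1 h01 (by
      change (a : F) + (1 - a) = 1
      ring)
  have h5 : symb (Fin.cons a⁻¹ (Fin.cons y v : Fin (n + 1) → Fˣ) : Fin (n + 2) → Fˣ) = 0 :=
    symb_steinberg _ 0 1 h01 (by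
      change ((a⁻¹ : Fˣ) : F) + (1 - ((a⁻¹ : Fˣ) : F)) = 1
      ring)
  rw [h3, symb_cons_cons_mul, h4, zero_add, symb_cons_cons_inv]
  rw [symb_cons_inv] at h5
  exact h5

/-- `{a, a, …} = {a, -1, …}`. -/
theorem symb_self (a : Fˣ) (v : Fin n → Fˣ) :
    symb (Fin.cons a (Fin.cons a v : Fin (n + 1) → Fˣ) : Fin (n + 2) → Fˣ) =
      symb (Fin.cons a (Fin.cons (-1) v : Fin (n + 1) → Fˣ) : Fin (n + 2) → Fˣ) := by
  have h1 : (a : Fˣ) = (-a) * (-1) := by
    rw [neg_mul_neg, mul_one]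
  calc symb (Fin.cons a (Fin.cons a v : Fin (n + 1) → Fˣ) : Fin (n + 2) → Fˣ)
      = symb (Fin.cons a (Fin.cons ((-a) * (-1)) v : Fin (n + 1) → Fˣ) : Fin (n + 2) → Fˣ) := by
        rw [← h1]
    _ = _ := by rw [symb_cons_cons_mul, symb_neg_self, zero_add]

/-- Symbols are alternating. -/
theorem symb_swap (a b : Fˣ) (v : Fin n → Fˣ) :
    symb (Fin.cons b (Fin.cons a v : Fin (n + 1) → Fˣ) : Fin (n + 2) → Fˣ) =
      - symb (Fin.cons a (Fin.cons b v : Fin (n + 1) → Fˣ) : Fin (n + 2) → Fˣ) := by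
  have h1 := symb_neg_self (a * b) v
  have h2 : -(a * b) = (-a) * b := (neg_mul a b).symm
  have h3 : symb (Fin.cons a (Fin.cons (-(a * b)) v : Fin (n + 1) → Fˣ) : Fin (n + 2) → Fˣ) =
      symb (Fin.cons a (Fin.cons b v : Fin (n + 1) → Fˣ) : Fin (n + 2) → Fˣ) := by
    rw [h2, symb_cons_cons_mul, symb_neg_self, zero_add]
  have h4 : -(a * b) = (-b) * a := by rw [neg_mul, mul_comm]
  have h5 : symb (Fin.cons b (Fin.cons (-(a * b)) v : Fin (n + 1) → Fˣ) : Fin (n + 2) → Fˣ) =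
      symb (Fin.cons b (Fin.cons a v : Fin (n + 1) → Fˣ) : Fin (n + 2) → Fˣ) := by
    rw [h4, symb_cons_cons_mul, symb_neg_self, zero_add]
  rw [symb_cons_mul, h3, h5] at h1
  exact eq_neg_of_add_eq_zero_right h1

end basic

section gen

variable {F : Type u} [Field F]

/-- Generators of the Milnor K-groups for a subgroup `U` and an element `p` which together
generate the multiplicative group. -/
theorem gen_mem (U : Subgroup Fˣ) (hU : (-1 : Fˣ) ∈ U) (p : Fˣ)
    (hp : ∀ a : Fˣ, ∃ (k : ℤ) (u : Fˣ), u ∈ U ∧ a = p ^ k * u) (n : ℕ)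
    (G : AddSubgroup (MilnorK F (n + 1)))
    (h1 : ∀ u : Fin (n + 1) → Fˣ, (∀ i, u i ∈ U) → symb u ∈ G)
    (h2 : ∀ u : Fin n → Fˣ, (∀ i, u i ∈ U) → symb (Fin.cons p u : Fin (n + 1) → Fˣ) ∈ G)
    (z : MilnorK F (n + 1)) : z ∈ G := by
  induction n with
  | zero =>
    refine mem_of_symb_mem G (fun a => ?_) z
    obtain ⟨k, u, hu, ha⟩ := hp (a 0)
    have h3 : a = Fin.cons (p ^ k * u) (Fin.elim0 : Fin 0 → Fˣ) := by
      funext i
      fin_cases i
      exact ha
    rw [h3, symb_cons_mul, symb_cons_zpow]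
    refine add_mem (zsmul_mem (h2 _ fun i => i.elim0) k) (h1 _ fun i => ?_)
    fin_cases i
    exact hu
  | succ n ih =>
    refine mem_of_symb_mem G (fun a => ?_) z
    have h3 : a = Fin.cons (a 0) (Fin.tail a) := (Fin.cons_self_tail a).symm
    obtain ⟨k, u₀, hu₀, ha⟩ := hp (a 0)
    obtain ⟨φ, hφ⟩ := exists_cup (n := n + 1) (a 0)
    have h4 : ∀ z : MilnorK F (n + 1), φ z ∈ G := by
      intro z
      have h5 : z ∈ G.comap φ := by
        refine ih (G.comap φ) (fun u hu => ?_) (fun u hu => ?_) z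
        · rw [AddSubgroup.mem_comap, hφ, ha, symb_cons_mul, symb_cons_zpow]
          refine add_mem (zsmul_mem (h2 u hu) k) (h1 _ fun i => ?_)
          refine Fin.cases ?_ (fun i => ?_) i
          · exact hu₀
          · exact hu i
        · rw [AddSubgroup.mem_comap, hφ, ha, symb_cons_mul, symb_cons_zpow, symb_self,
            symb_swap p u₀]
          refine add_mem (zsmul_mem (h2 _ fun i => ?_) k) (neg_mem (h2 _ fun i => ?_))
          · refine Fin.cases ?_ (fun i => ?_) i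
            · exact hU
            · exact hu i
          · refine Fin.cases ?_ (fun i => ?_) i
            · exact hu₀
            · exact hu i
      exact h5
    rw [h3, ← hφ]
    exact h4 _

end gen

end Vale.Agent.P178.Two
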