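import Vale.Agent.P178.Two.Main

/-!
The homomorphism from the Milnor K-group of the closed point.
-/

namespace Vale.Agent.P178.Two

open IsLocalRing Vale.Agent.P178.Gersten Function

universe u

noncomputable section

variable {A : Type u} [CommRing A] [IsDomain A] [IsLocalRing A] [IsNoetherianRing A]
  (F : Type u) [Field F] [Algebra A F] [IsFractionRing A F]
  (hprin : ∀ Q : Pt A 1, ∃ q : A, q ≠ 0 ∧ Q.P.asIdeal = Ideal.span {q})
  {x y : A} (hxy : maximalIdeal A = Ideal.span {x, y})
  (X : Pt A 1) (hX : X.P.asIdeal = Ideal.span {x}) (hx0 : x ≠ 0)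
  [IsDomain (A ⧸ Ideal.span {x})] [IsDiscreteValuationRing (A ⧸ Ideal.span {x})]
  (t : (Gersten.kappa X.P)ˣ) (ht : (t : Gersten.kappa X.P) = Gersten.toKappa X.P y)

open Classical in
omit [IsLocalRing A] [IsDomain (A ⧸ Ideal.span {x})]
  [IsDiscreteValuationRing (A ⧸ Ideal.span {x})] in
include hprin hX hx0 in
/-- Symbols of units at `X` are boundaries. -/
theorem unit_boundary (n : ℕ) (u : Fin n → Aˣ) :
    (DFinsupp.single X (symb fun i => ku X.P (u i)) : Fam A n) ∈ Bd A F n := by
  have hu : ∀ (Q : Pt A 1) (i : Fin n), (u i : A) ∉ Q.P.asIdeal := fun Q i h =>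
    Q.P.2.ne_top (Ideal.eq_top_of_isUnit_mem _ h (u i).isUnit)
  obtain ⟨w, hw, hwX, hwQ⟩ := exists_boundary (F := F) hprin X hx0 hX n (fun i => (u i : A))
    (hu X)
  have h1 : (DFinsupp.single X (symb fun i => ku X.P (u i)) : Fam A n) = w := by
    ext Q
    by_cases hQ : Q = X
    · subst hQ
      rw [DFinsupp.single_eq_same, hwX]
      congr 1
      funext i
      exact Units.ext rfl
    · rw [DFinsupp.single_eq_of_ne hQ, hwQ Q hQ (hu Q)]
  rw [h1]
  exact hw

open Classical in
/-- The class of the symbol `{t, v₁, …}` at `X`. -/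
def Psi {m : ℕ} (v : Fin m → (Gersten.kappa X.P)ˣ) : Fam A (m + 1) ⧸ Bd A F (m + 1) :=
  QuotientAddGroup.mk' (Bd A F (m + 1)) (DFinsupp.single X (symb (Fin.cons t v)))

open Classical in
omit [IsDomain A] [IsLocalRing A] [IsNoetherianRing A] [IsFractionRing A F] in
theorem Psi_def {m : ℕ} (v : Fin m → (Gersten.kappa X.P)ˣ) : Psi F X t v =
    QuotientAddGroup.mk' (Bd A F (m + 1)) (DFinsupp.single X (symb (Fin.cons t v))) := rfl

open Classical in
theorem Psi_update_mul {m : ℕ} (v : Fin m → (Gersten.kappa X.P)ˣ) (i : Fin m)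
    (p q : (Gersten.kappa X.P)ˣ) :
    Psi F X t (update v i (p * q)) = Psi F X t (update v i p) + Psi F X t (update v i q) := by
  rw [Psi_def, Psi_def, Psi_def, ← map_add, ← DFinsupp.single_add, Fin.cons_update, Fin.cons_update,
    Fin.cons_update, symb_update_mul]

open Classical in
theorem Psi_steinberg {m : ℕ} (v : Fin m → (Gersten.kappa X.P)ˣ) (i j : Fin m) (hij : i ≠ j)
    (h : (v i : Gersten.kappa X.P) + v j = 1) : Psi F X t v = 0 := by
  rw [Psi_def, symb_steinberg _ i.succ j.succ (fun h => hij (Fin.succ_injective _ h)) (by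
    rw [Fin.cons_succ, Fin.cons_succ]; exact h), DFinsupp.single_zero, map_zero]

include hprin hX hx0 ht in
theorem Psi_unit {m : ℕ} (u : Fin m → Aˣ) (i : Fin m) (a : Aˣ)
    (h : (u i : A) - (1 + y * a) ∈ Ideal.span {x}) :
    Psi F X t (fun j => ku X.P (u j)) = 0 := by
  classical
  have h1 : (ku X.P (u i) : Gersten.kappa X.P) = 1 + t * ku X.P a := by
    have h2 : Gersten.toKappa X.P ((u i : A) - (1 + y * a)) = 0 := by
      rw [toKappa_eq_zero_iff, hX]; exact h
    rw [map_sub, map_add, map_mul, map_one, sub_eq_zero] at h2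
    rw [ht]
    exact h2
  have h3 : symb (Fin.cons (ku X.P (-a) * t) fun j => ku X.P (u j) :
      Fin (m + 1) → (Gersten.kappa X.P)ˣ) = 0 := by
    refine symb_steinberg _ 0 i.succ (Fin.succ_ne_zero i).symm ?_
    rw [Fin.cons_zero, Fin.cons_succ, h1, Units.val_mul]
    have h4 : (ku X.P (-a) : Gersten.kappa X.P) = - ku X.P a :=
      map_neg (Gersten.toKappa X.P) (a : A)
    rw [h4]
    ring
  rw [symb_cons_mul] at h3
  have h5 := unit_boundary F hprin X hX hx0 (m + 1) (Fin.cons (-a) u)
  have h6 : (fun i => ku X.P ((Fin.cons (-a) u : Fin (m + 1) → Aˣ) i)) =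
      (Fin.cons (ku X.P (-a)) fun j => ku X.P (u j) : Fin (m + 1) → (Gersten.kappa X.P)ˣ) := by
    funext j
    refine Fin.cases ?_ (fun j => ?_) j
    · rw [Fin.cons_zero, Fin.cons_zero]
    · rw [Fin.cons_succ, Fin.cons_succ]
  rw [h6] at h5
  rw [Psi_def, (eq_neg_of_add_eq_zero_right h3), DFinsupp.single_neg, map_neg, neg_eq_zero]
  exact (QuotientAddGroup.eq_zero_iff _).2 h5

include hprin hxy hX hx0 ht in
theorem Psi_one {m : ℕ} (u : Fin m → Aˣ) (i : Fin m)
    (h : (u i : A) - 1 ∈ maximalIdeal A) : Psi F X t (fun j => ku X.P (u j)) = 0 := by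
  classical
  have hxm : x ∈ maximalIdeal A := by
    rw [hxy]; exact Ideal.subset_span (by simp)
  have hym : y ∈ maximalIdeal A := by
    rw [hxy]; exact Ideal.subset_span (by simp)
  have h1m : (1 : A) ∉ maximalIdeal A := fun h =>
    (maximalIdeal.isMaximal A).ne_top ((Ideal.eq_top_iff_one _).2 h)
  rw [hxy, Ideal.mem_span_pair] at h
  obtain ⟨e, a, hea⟩ := h
  by_cases ha : IsUnit a
  · obtain ⟨a, rfl⟩ := ha
    refine Psi_unit F hprin X hX hx0 t ht u i a ?_
    have h2 : (u i : A) - (1 + y * a) = e * x := by linear_combination -hea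
    rw [h2]
    exact Ideal.mul_mem_left _ _ (Ideal.mem_span_singleton_self _)
  · have ham : a ∈ maximalIdeal A := ha
    obtain ⟨s, hs⟩ : IsUnit (1 + y) := by
      by_contra h
      have h2 : 1 + y ∈ maximalIdeal A := h
      have h3 := sub_mem h2 hym
      rw [add_sub_cancel_right] at h3
      exact h1m h3
    obtain ⟨b, hb⟩ : IsUnit (a - 1) := by
      by_contra h
      have h2 : a - 1 ∈ maximalIdeal A := h
      have h3 := sub_mem ham h2
      rw [sub_sub_cancel] at h3
      exact h1m h3
    have h4 : (fun j => ku X.P (u j)) = update (fun j => ku X.P (u j)) i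
        (ku X.P s * ku X.P (s⁻¹ * u i)) := by
      rw [← map_mul, mul_inv_cancel_left, update_eq_self]
    have h5 : ∀ p : Aˣ, update (fun j => ku X.P (u j)) i (ku X.P p) =
        fun j => ku X.P (update u i p j) := by
      intro p
      funext j
      by_cases hj : j = i
      · subst hj
        rw [update_self, update_self]
      · rw [update_of_ne hj, update_of_ne hj]
    rw [h4, Psi_update_mul, h5, h5]
    rw [Psi_unit F hprin X hX hx0 t ht (update u i s) i 1 (by
        rw [update_self, hs, Units.val_one, mul_one, sub_self]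
        exact zero_mem _),
      Psi_unit F hprin X hX hx0 t ht (update u i (s⁻¹ * u i)) i (b * s⁻¹) ?_, add_zero]
    rw [update_self]
    have h6 : (s : A) * (((s⁻¹ * u i : Aˣ) : A) - (1 + y * ((b * s⁻¹ : Aˣ) : A))) = e * x := by
      have h7 : (s : A) * ((s⁻¹ : Aˣ) : A) = 1 := Units.mul_inv s
      rw [Units.val_mul, Units.val_mul, hb]
      linear_combination (u i - y * (a - 1)) * h7 - hs - hea
    have h8 : ((s⁻¹ : Aˣ) : A) * (e * x) ∈ Ideal.span {x} :=
      Ideal.mul_mem_left _ _ (Ideal.mul_mem_left _ _ (Ideal.mem_span_singleton_self _))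
    rw [← h6, ← mul_assoc, Units.inv_mul, one_mul] at h8
    exact h8

include hprin hxy hX hx0 ht in
/-- The class depends only on the residues. -/
theorem Psi_congr {m : ℕ} (u u' : Fin m → Aˣ) (h : ∀ i, (u i : A) - u' i ∈ maximalIdeal A) :
    Psi F X t (fun j => ku X.P (u j)) = Psi F X t (fun j => ku X.P (u' j)) := by
  classical
  have h5 : ∀ (u : Fin m → Aˣ) (i : Fin m) (p : Aˣ), (fun j => ku X.P (update u i p j)) =
      update (fun j => ku X.P (u j)) i (ku X.P p) := by
    intro u i p
    funext j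
    by_cases hj : j = i
    · subst hj
      rw [update_self, update_self]
    · rw [update_of_ne hj, update_of_ne hj]
  have one : ∀ (u : Fin m → Aˣ) (i : Fin m) (b : Aˣ), (u i : A) - b ∈ maximalIdeal A →
      Psi F X t (fun j => ku X.P (u j)) = Psi F X t (fun j => ku X.P (update u i b j)) := by
    intro u i b hb
    have h6 : (fun j => ku X.P (u j)) =
        update (fun j => ku X.P (u j)) i (ku X.P (u i * b⁻¹) * ku X.P b) := by
      rw [← map_mul, inv_mul_cancel_right, update_eq_self]
    rw [h5]
    conv_lhs => rw [h6]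
    rw [Psi_update_mul, ← h5, Psi_one F hprin hxy X hX hx0 t ht (update u i (u i * b⁻¹)) i ?_,
      zero_add]
    rw [update_self]
    have h7 : ((u i * b⁻¹ : Aˣ) : A) - 1 = ((u i : A) - b) * ((b⁻¹ : Aˣ) : A) := by
      rw [Units.val_mul, sub_mul, Units.mul_inv]
    rw [h7]
    exact Ideal.mul_mem_right _ _ hb
  have key : ∀ (s : Finset (Fin m)) (u : Fin m → Aˣ), (∀ i, (u i : A) - u' i ∈ maximalIdeal A) →
      (∀ i, i ∉ s → u i = u' i) →
      Psi F X t (fun j => ku X.P (u j)) = Psi F X t (fun j => ku X.P (u' j)) := by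
    intro s
    induction s using Finset.induction_on with
    | empty =>
      intro u _ h2
      have : u = u' := funext fun i => h2 i (Finset.notMem_empty i)
      rw [this]
    | insert i s hi ih =>
      intro u h1 h2
      rw [one u i (u' i) (h1 i)]
      refine ih (update u i (u' i)) (fun j => ?_) (fun j hj => ?_)
      · by_cases hji : j = i
        · subst hji
          rw [update_self, sub_self]
          exact zero_mem _
        · rw [update_of_ne hji]
          exact h1 j
      · by_cases hji : j = i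
        · subst hji
          rw [update_self]
        · rw [update_of_ne hji]
          exact h2 j (by rw [Finset.mem_insert]; push Not; exact ⟨hji, hj⟩)
  exact key Finset.univ u h fun i hi => absurd (Finset.mem_univ i) hi

end

end Vale.Agent.P178.Two
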