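import Vale.Agent.P178.Two.Hom

/-!
Regular local rings of dimension two.
-/

namespace Vale.Agent.P178.Two

open IsLocalRing Vale.Agent.P178.Gersten Function

universe u

noncomputable section

/-- Regular systems of parameters of a regular local ring of dimension two. -/
theorem param {A : Type u} [CommRing A] [IsRegularLocalRing A] (hdim : ringKrullDim A = 2)
    {x y : A} (hxy : maximalIdeal A = Ideal.span {x, y}) :
    ∃ (_ : (Ideal.span {x}).IsPrime), (Ideal.span {x} : Ideal A).height = 1 ∧ x ≠ 0 ∧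
      y ∉ Ideal.span {x} ∧ ∃ _ : IsDomain (A ⧸ Ideal.span {x}),
        IsDiscreteValuationRing (A ⧸ Ideal.span {x}) := by
  have hrx : Set.range (fun _ : Fin 1 => x) = {x} := by simp
  have hry : Set.range (fun _ : Fin 1 => y) = {y} := by simp
  have hgz : maximalIdeal A = Ideal.span (Set.range (fun _ : Fin 1 => x)) ⊔
      Ideal.span (Set.range (fun _ : Fin 1 => y)) := by
    rw [hrx, hry, ← Ideal.span_union, hxy]
    rfl
  have hd : ((1 + 1 : ℕ) : WithBot ℕ∞) ≤ ringKrullDim A := by
    rw [hdim]; norm_num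
  obtain ⟨hreg, hdq⟩ := regular_quotient 1 1 _ _ hgz hd
  have hht := le_height_span_of_regular 1 1 _ _ hgz hd
  rw [hrx] at hreg hdq hht
  have hdom : IsDomain (A ⧸ Ideal.span {x}) := isDomain_of_isRegularLocalRing _
  have hp : (Ideal.span {x}).IsPrime := (Ideal.Quotient.isDomain_iff_prime _).mp hdom
  have hht' : (Ideal.span {x} : Ideal A).height ≤ 1 := by
    have h2 := Ideal.height_le_spanFinrank (Ideal.span {x}) hp.ne_top
    refine h2.trans ?_
    have h3 := Submodule.spanFinrank_span_le_encard (R := A) {x}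
    rw [Set.encard_singleton] at h3
    exact h3
  have hx0 : x ≠ 0 := by
    rintro rfl
    rw [Ideal.span_singleton_eq_bot.2 rfl] at hht
    have : IsDomain A := isDomain_of_isRegularLocalRing A
    rw [Ideal.height_bot] at hht
    simp at hht
  have hmax : maximalIdeal (A ⧸ Ideal.span {x}) = Ideal.span {Ideal.Quotient.mk _ y} := by
    have h1 : maximalIdeal (A ⧸ Ideal.span {x}) =
        (maximalIdeal A).map (Ideal.Quotient.mk (Ideal.span {x})) := by
      symm
      apply IsLocalRing.eq_maximalIdeal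
      refine Ideal.IsMaximal.map_of_surjective_of_ker_le Ideal.Quotient.mk_surjective ?_
      rw [Ideal.mk_ker, hxy, Ideal.span_singleton_le_iff_mem]
      exact Ideal.subset_span (by simp)
    rw [h1, hxy, Ideal.map_span, Set.image_pair, Ideal.Quotient.eq_zero_iff_mem.2
      (Ideal.mem_span_singleton_self x)]
    rw [Ideal.span_insert_zero]
  have hyx : y ∉ Ideal.span {x} := by
    intro hmem
    rw [Ideal.Quotient.eq_zero_iff_mem.2 hmem, Ideal.span_singleton_eq_bot.2 rfl] at hmax
    have h3 : IsField (A ⧸ Ideal.span {x}) := isField_iff_maximalIdeal_eq.2 hmax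
    have h4 := ringKrullDim_eq_zero_of_isField h3
    rw [hdq] at h4
    have h5 : (1 : ℕ) = 0 := by exact_mod_cast h4
    omega
  exact ⟨hp, le_antisymm hht' (by exact_mod_cast hht), hx0, hyx, hdom,
    isDVR_of_generator hmax fun h => hyx (Ideal.Quotient.eq_zero_iff_mem.1 h)⟩

theorem hprin_of_regular {A : Type u} [CommRing A] [IsRegularLocalRing A]
    (hdim : ringKrullDim A = 2) (Q : Pt A 1) : ∃ q : A, q ≠ 0 ∧ Q.P.asIdeal = Ideal.span {q} := by
  have : IsDomain A := isDomain_of_isRegularLocalRing A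
  have hne : Q.P.asIdeal ≠ maximalIdeal A := by
    intro h
    have h1 := Q.height
    rw [h] at h1
    have h2 := IsLocalRing.maximalIdeal_height_eq_ringKrullDim (R := A)
    rw [h1, hdim] at h2
    have h3 : (((1 : ℕ) : ℕ∞) : WithBot ℕ∞) = (((2 : ℕ) : ℕ∞) : WithBot ℕ∞) := h2
    have h4 : (1 : ℕ) = 2 := by exact_mod_cast h3
    omega
  obtain ⟨q, hq⟩ := exists_generator_of_isPrime A hdim Q.P.asIdeal hne
  refine ⟨q, ?_, hq⟩
  rintro rfl
  rw [Ideal.span_singleton_eq_bot.2 rfl] at hq
  have h1 := Q.height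
  rw [hq, Ideal.height_bot] at h1
  simp at h1

end

end Vale.Agent.P178.Two
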