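import Vale.Agent.P178.Two.Milnor
import Vale.Agent.P178.Bdl.B1

/-!
Elementary properties of the residue maps.
-/

namespace Vale.Agent.P178.Two

open IsLocalRing Vale.Agent.P178.Gersten

universe u

noncomputable section

/-- Generators from a set whose quotients are everything. -/
theorem gens_quot {F : Type u} [Field F] (S : Set Fˣ)
    (hS : ∀ a : Fˣ, ∃ s ∈ S, ∃ s' ∈ S, a = s * s'⁻¹) (n : ℕ) (G : AddSubgroup (MilnorK F n))
    (h : ∀ u : Fin n → Fˣ, (∀ i, u i ∈ S) → symb u ∈ G) (z : MilnorK F n) : z ∈ G := by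
  induction n with
  | zero => exact mem_of_symb_mem G (fun a => h a fun i => i.elim0) z
  | succ n ih =>
    refine mem_of_symb_mem G (fun a => ?_) z
    obtain ⟨s, hs, s', hs', ha⟩ := hS (a 0)
    have key : ∀ s ∈ S, ∀ v : Fin n → Fˣ, symb (Fin.cons s v : Fin (n + 1) → Fˣ) ∈ G := by
      intro s hs v
      obtain ⟨φ, hφ⟩ := exists_cup (n := n) s
      have h1 : symb v ∈ G.comap φ := ih (G.comap φ) (fun u hu => by
        rw [AddSubgroup.mem_comap, hφ]
        refine h _ fun i => ?_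
        refine Fin.cases ?_ (fun i => ?_) i
        · exact hs
        · exact hu i) (symb v)
      rw [AddSubgroup.mem_comap, hφ] at h1
      exact h1
    have h3 : a = Fin.cons (a 0) (Fin.tail a) := (Fin.cons_self_tail a).symm
    rw [h3, ha, symb_cons_mul, symb_cons_inv]
    exact add_mem (key s hs _) (neg_mem (key s' hs' _))

section cls

variable {A : Type u} [CommRing A]

theorem toKappa_eq_zero_iff (P : PrimeSpectrum A) (c : A) :
    Gersten.toKappa P c = 0 ↔ c ∈ P.asIdeal := by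
  have h : Gersten.toKappa P c =
    algebraMap (A ⧸ P.asIdeal) (P178.kappa P) (Ideal.Quotient.mk _ c) := rfl
  rw [h]
  refine (IsFractionRing.to_map_eq_zero_iff (R := A ⧸ P.asIdeal) (K := P178.kappa P)).trans ?_
  exact Ideal.Quotient.eq_zero_iff_mem

/-- The class of an element outside `P`. -/
def kp (P : PrimeSpectrum A) (c : A) (hc : c ∉ P.asIdeal) : (Gersten.kappa P)ˣ :=
  Units.mk0 (Gersten.toKappa P c) (by rw [Ne, toKappa_eq_zero_iff]; exact hc)

theorem kp_val (P : PrimeSpectrum A) (c : A) (hc : c ∉ P.asIdeal) :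
    (kp P c hc : Gersten.kappa P) = Gersten.toKappa P c := rfl

theorem exists_kp (P : PrimeSpectrum A) (a : (Gersten.kappa P)ˣ) :
    ∃ (r s : A) (hr : r ∉ P.asIdeal) (hs : s ∉ P.asIdeal), a = kp P r hr * (kp P s hs)⁻¹ := by
  obtain ⟨r, s, hs, h⟩ := IsFractionRing.div_surjective (A := A ⧸ P.asIdeal) (K := P178.kappa P)
    (a : Gersten.kappa P)
  obtain ⟨r, rfl⟩ := Ideal.Quotient.mk_surjective r
  obtain ⟨s, rfl⟩ := Ideal.Quotient.mk_surjective s
  have h' : Gersten.toKappa P r / Gersten.toKappa P s = (a : Gersten.kappa P) := h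
  have hs' : s ∉ P.asIdeal := by
    intro hmem
    exact nonZeroDivisors.ne_zero hs (Ideal.Quotient.eq_zero_iff_mem.2 hmem)
  have hr' : r ∉ P.asIdeal := by
    intro hmem
    apply a.ne_zero
    rw [← h', (toKappa_eq_zero_iff P r).2 hmem, zero_div]
  refine ⟨r, s, hr', hs', Units.ext ?_⟩
  rw [Units.val_mul, Units.val_inv_eq_inv_val, ← div_eq_mul_inv]
  exact h'.symm

variable [IsDomain A] (F : Type u) [Field F] [Algebra A F] [IsFractionRing A F]

/-- A nonzero element of `A` as a unit of `F`. -/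
def el (c : A) (hc : c ≠ 0) : Fˣ := Units.mk0 (algebraMap A F c) (by
  rw [Ne, IsFractionRing.to_map_eq_zero_iff]; exact hc)

omit [IsDomain A] in
theorem ne_zero_of_notMem {P : PrimeSpectrum A} {c : A} (hc : c ∉ P.asIdeal) : c ≠ 0 :=
  fun h => hc (by rw [h]; exact zero_mem _)

variable {F}

theorem isClass_el {P : PrimeSpectrum A} (c : A) (hc : c ∉ P.asIdeal) :
    IsClass F P (el F c (ne_zero_of_notMem hc)) (kp P c hc) := by
  refine ⟨c, 1, hc, fun h => P.2.ne_top ((Ideal.eq_top_iff_one _).2 h), ?_, ?_⟩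
  · rw [map_one, mul_one]; rfl
  · rw [map_one, mul_one]; rfl

omit [IsDomain A] [IsFractionRing A F] in
theorem isClass_mul {P : PrimeSpectrum A} {a a' : Fˣ} {b b' : (Gersten.kappa P)ˣ} (h : IsClass F P a b)
    (h' : IsClass F P a' b') : IsClass F P (a * a') (b * b') := by
  obtain ⟨r, s, hr, hs, h1, h2⟩ := h
  obtain ⟨r', s', hr', hs', h1', h2'⟩ := h'
  refine ⟨r * r', s * s', fun h => (P.2.mem_or_mem h).elim hr hr',
    fun h => (P.2.mem_or_mem h).elim hs hs', ?_, ?_⟩
  · rw [Units.val_mul, map_mul, map_mul, ← h1, ← h1']; ring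
  · rw [Units.val_mul, map_mul, map_mul, ← h2, ← h2']; ring

omit [IsDomain A] [IsFractionRing A F] in
theorem isClass_inv {P : PrimeSpectrum A} {a : Fˣ} {b : (Gersten.kappa P)ˣ} (h : IsClass F P a b) :
    IsClass F P a⁻¹ b⁻¹ := by
  obtain ⟨r, s, hr, hs, h1, h2⟩ := h
  refine ⟨s, r, hs, hr, ?_, ?_⟩
  · rw [← h1, Units.inv_mul_cancel_left]
  · rw [← h2, Units.inv_mul_cancel_left]

omit [IsDomain A] [IsFractionRing A F] in
theorem isClass_neg_one {P : PrimeSpectrum A} : IsClass F P (-1) (-1) := by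
  have h1 : (1 : A) ∉ P.asIdeal := fun h => P.2.ne_top ((Ideal.eq_top_iff_one _).2 h)
  refine ⟨-1, 1, fun h => h1 (by simpa using neg_mem h), h1, ?_, ?_⟩
  · rw [Units.val_neg, Units.val_one, map_one, map_neg, map_one, mul_one]
  · rw [Units.val_neg, Units.val_one, map_one, map_neg, map_one, mul_one]

omit [IsDomain A] [IsFractionRing A F] in
theorem isClass_one {P : PrimeSpectrum A} : IsClass F P 1 1 := by
  have h1 : (1 : A) ∉ P.asIdeal := fun h => P.2.ne_top ((Ideal.eq_top_iff_one _).2 h)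
  refine ⟨1, 1, h1, h1, ?_, ?_⟩
  · rw [Units.val_one, map_one, mul_one]
  · rw [Units.val_one, map_one, mul_one]

/-- The units at `P`. -/
def unitsAt (F : Type u) [Field F] [Algebra A F] (P : PrimeSpectrum A) : Subgroup Fˣ where
  carrier := {a | ∃ b, IsClass F P a b}
  one_mem' := ⟨1, isClass_one⟩
  mul_mem' := by
    rintro a a' ⟨b, h⟩ ⟨b', h'⟩
    exact ⟨b * b', isClass_mul h h'⟩
  inv_mem' := by
    rintro a ⟨b, h⟩
    exact ⟨b⁻¹, isClass_inv h⟩

theorem exists_el' (a : Fˣ) :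
    ∃ (r s : A) (hr : r ≠ 0) (hs : s ≠ 0), a = el F r hr * (el F s hs)⁻¹ := by
  obtain ⟨r, s, hs, h⟩ := IsFractionRing.div_surjective (A := A) (a : F)
  have hs0 : s ≠ 0 := nonZeroDivisors.ne_zero hs
  have hr0 : r ≠ 0 := by
    rintro rfl
    rw [map_zero, zero_div] at h
    exact a.ne_zero h.symm
  refine ⟨r, s, hr0, hs0, Units.ext ?_⟩
  rw [Units.val_mul, Units.val_inv_eq_inv_val, ← div_eq_mul_inv]
  exact h.symm

/-- Every symbol has a residue. -/
theorem resRel_total [IsNoetherianRing A] (P : PrimeSpectrum A) {q : A} (hq0 : q ≠ 0)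
    (hq : P.asIdeal = Ideal.span {q}) (n : ℕ) (z : MilnorK F (n + 1)) :
    ∃ r, (z, r) ∈ resRel F P n := by
  have hqp : Prime q := (Ideal.span_singleton_prime hq0).1 (hq ▸ P.2)
  let G : AddSubgroup (MilnorK F (n + 1)) := (resRel F P n).map (AddMonoidHom.fst _ _)
  have h1 : z ∈ G := by
    refine gen_mem (unitsAt F P) ⟨-1, isClass_neg_one⟩ (el F q hq0) ?_ n G ?_ ?_ z
    · intro a
      obtain ⟨r, s, hr, hs, ha⟩ := exists_el' (A := A) a
      obtain ⟨i, r', hr', rfl⟩ := WfDvdMonoid.max_power_factor hr hqp.irreducible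
      obtain ⟨j, s', hs', rfl⟩ := WfDvdMonoid.max_power_factor hs hqp.irreducible
      have hr'' : r' ∉ P.asIdeal := by rw [hq, Ideal.mem_span_singleton]; exact hr'
      have hs'' : s' ∉ P.asIdeal := by rw [hq, Ideal.mem_span_singleton]; exact hs'
      refine ⟨(i : ℤ) - j, el F r' (ne_zero_of_notMem hr'') * (el F s' (ne_zero_of_notMem hs''))⁻¹,
        ⟨_, isClass_mul (isClass_el r' hr'') (isClass_inv (isClass_el s' hs''))⟩, ?_⟩
      have e1 : el F (q ^ i * r') hr = el F q hq0 ^ (i : ℤ) * el F r' (ne_zero_of_notMem hr'') := by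
        ext
        rw [zpow_natCast, Units.val_mul, Units.val_pow_eq_pow_val]
        change algebraMap A F (q ^ i * r') = algebraMap A F q ^ i * algebraMap A F r'
        rw [map_mul, map_pow]
      have e2 : el F (q ^ j * s') hs = el F q hq0 ^ (j : ℤ) * el F s' (ne_zero_of_notMem hs'') := by
        ext
        rw [zpow_natCast, Units.val_mul, Units.val_pow_eq_pow_val]
        change algebraMap A F (q ^ j * s') = algebraMap A F q ^ j * algebraMap A F s'
        rw [map_mul, map_pow]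
      rw [ha, e1, e2, zpow_sub, mul_inv]
      ac_rfl
    · intro u hu
      choose v hv using hu
      exact ⟨(symb u, 0), AddSubgroup.subset_closure (Or.inr ⟨u, v, hv, rfl⟩), rfl⟩
    · intro u hu
      choose v hv using hu
      exact ⟨(symb (Fin.cons (el F q hq0) u), symb v), AddSubgroup.subset_closure
        (Or.inl ⟨el F q hq0, q, u, v, hq, rfl, hv, rfl⟩), rfl⟩
  obtain ⟨⟨z', r⟩, h2, h3⟩ := h1
  refine ⟨r, ?_⟩
  have h4 : z' = z := h3
  rw [← h4]
  exact h2

end cls

end

end Vale.Agent.P178.Two
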