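import Vale.Agent.P178.Two.Res
import Mathlib.LinearAlgebra.Multilinear.Basic
import Mathlib.Tactic.Module
import Mathlib.LinearAlgebra.Matrix.Notation

/-!
The residue maps of Milnor K-theory are well defined.
-/

namespace Vale.Agent.P178.Two

open IsLocalRing Vale.Agent.P178.Gersten Function

universe u

noncomputable section

section ring

variable {R : Type*} [Ring R]

theorem mul_prod_eq_zero (x : R) (L : List R) (h : ∀ y ∈ L, x * y = -(y * x)) (z : R)
    (hz : z ∈ L) (hxz : x * z = 0) : x * L.prod = 0 := by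
  induction L with
  | nil => exact absurd hz List.not_mem_nil
  | cons y L ih =>
    rw [List.prod_cons, ← mul_assoc]
    rcases List.mem_cons.1 hz with rfl | hz'
    · rw [hxz, zero_mul]
    · rw [h y List.mem_cons_self, neg_mul, mul_assoc,
        ih (fun w hw => h w (List.mem_cons_of_mem _ hw)) hz', mul_zero, neg_zero]

theorem prod_ofFn_eq_zero : ∀ (n : ℕ) (L : Fin n → R) (_ : ∀ i j, L i * L j = -(L j * L i))
    (i j : Fin n), i ≠ j → L i * L j = 0 → (List.ofFn L).prod = 0 := by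
  intro n
  induction n with
  | zero => intro L _ i; exact i.elim0
  | succ n ih =>
    intro L h i j hij h0
    rw [List.ofFn_succ, List.prod_cons]
    have hmem : ∀ k : Fin n, L k.succ ∈ List.ofFn fun i : Fin n => L i.succ := by
      intro k
      exact List.mem_ofFn.2 ⟨k, rfl⟩
    have hanti : ∀ y ∈ List.ofFn fun i : Fin n => L i.succ, L 0 * y = -(y * L 0) := by
      intro y hy
      obtain ⟨k, rfl⟩ := List.mem_ofFn.1 hy
      exact h _ _
    rcases Fin.eq_zero_or_eq_succ i with rfl | ⟨i, rfl⟩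
    · rcases Fin.eq_zero_or_eq_succ j with rfl | ⟨j, rfl⟩
      · exact absurd rfl hij
      · exact mul_prod_eq_zero _ _ hanti _ (hmem j) h0
    · rcases Fin.eq_zero_or_eq_succ j with rfl | ⟨j, rfl⟩
      · refine mul_prod_eq_zero _ _ hanti _ (hmem i) ?_
        rw [h, h0, neg_zero]
      · rw [ih (fun i => L i.succ) (fun i j => h _ _) i j (fun h => hij (congrArg _ h)) h0,
          mul_zero]

/-- The matrix of `{π ^ v u, -}` where `C` is the multiplication by `{ū}` and `M` the
multiplication by `{-1}`. -/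
def TM (v : ℤ) (C M : R) : Matrix (Fin 2) (Fin 2) R := !![C, 0; v • 1, v • M - C]

theorem TM_add (v v' : ℤ) (C C' M : R) : TM (v + v') (C + C') M = TM v C M + TM v' C' M := by
  ext i j
  fin_cases i <;> fin_cases j <;> simp [TM, add_smul] <;> abel

theorem TM_anti (v v' : ℤ) (C C' M : R) (hC : C * C' = -(C' * C)) (hM : C * M = -(M * C))
    (hM' : C' * M = -(M * C')) (h2 : M + M = 0) :
    TM v C M * TM v' C' M = -(TM v' C' M * TM v C M) := by
  have h3 : (v * v') • (M + M) = 0 := by rw [h2, smul_zero]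
  have h4 : (v * v') • (M * M + M * M) = 0 := by rw [← mul_add, h2, mul_zero, smul_zero]
  have c1 : ∀ (k : ℤ) (x : R), x * (k : R) = k • x := fun k x => by
    rw [← (Int.cast_commute k x).eq, zsmul_eq_mul]
  have c2 : ∀ (k : ℤ) (x : R), (k : R) * x = k • x := fun k x => (zsmul_eq_mul x k).symm
  rw [TM, TM, Matrix.mul_fin_two, Matrix.mul_fin_two, ← add_eq_zero_iff_eq_neg]
  ext i j
  fin_cases i <;> fin_cases j <;> simp [hC, sub_mul, mul_sub]
  · simp only [c1, c2]
    refine Eq.trans ?_ h3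
    module
  · simp only [c1, c2, smul_mul_assoc, mul_smul_comm, hM, hM', smul_neg]
    refine Eq.trans ?_ h4
    module

theorem TM_case (v : ℤ) (C C' M : R) (hC : C * C' = 0) (hC' : C' = M + C)
    (hM : C * M = -(M * C)) (h2 : M + M = 0) :
    TM v C M * TM v C' M = 0 := by
  obtain ⟨k, hk⟩ := Int.even_mul_succ_self v
  obtain ⟨l, hl⟩ := Int.even_mul_pred_self v
  have h3 : k • (M + M) = 0 := by rw [h2, smul_zero]
  have h4 : l • (M * M + M * M) = 0 := by rw [← mul_add, h2, mul_zero, smul_zero]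
  have c1 : ∀ (k : ℤ) (x : R), x * (k : R) = k • x := fun k x => by
    rw [← (Int.cast_commute k x).eq, zsmul_eq_mul]
  have c2 : ∀ (k : ℤ) (x : R), (k : R) * x = k • x := fun k x => (zsmul_eq_mul x k).symm
  rw [TM, TM, Matrix.mul_fin_two]
  ext i j
  fin_cases i <;> fin_cases j <;> simp [hC, sub_mul, mul_sub]
  · simp only [c1, c2]
    have h5 : v • (M + C) + (v • v • M - v • C) = (v * (v + 1)) • M := by module
    rw [hC', h5, hk]
    refine Eq.trans ?_ h3
    module
  · simp only [c2, smul_mul_assoc, mul_smul_comm, hM, smul_neg]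
    have h5 : v • v • (M * M) - -(v • (M * C)) - v • (M * M + M * C) =
        (v * (v - 1)) • (M * M) := by module
    rw [hC', mul_add, h5, hl]
    refine Eq.trans ?_ h4
    module

theorem TM_zero (M : R) : TM 0 0 M = 0 := by
  ext i j
  fin_cases i <;> fin_cases j <;> simp [TM]

/-- The product for units. -/
theorem TM_prod (n : ℕ) (C : Fin n → R) (M : R) :
    (List.ofFn fun i => TM 0 (C i) M).prod 0 0 = (List.ofFn C).prod ∧
      (List.ofFn fun i => TM 0 (C i) M).prod 1 0 = 0 := by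
  induction n with
  | zero => simp
  | succ n ih =>
    obtain ⟨h1, h2⟩ := ih (fun i => C i.succ)
    rw [List.ofFn_succ, List.prod_cons, List.ofFn_succ, List.prod_cons]
    constructor
    · rw [Matrix.mul_apply, Fin.sum_univ_two, h1, h2]
      simp [TM]
    · rw [Matrix.mul_apply, Fin.sum_univ_two, h1, h2]
      simp [TM]

end ring

section graded

variable {K : Type u} [Field K]

/-- The product of the Milnor K-groups. -/
abbrev GK (K : Type u) [Field K] : Type u := (n : ℕ) → MilnorK K n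

/-- Multiplication by a symbol of degree one. -/
def cup₁ (a : Kˣ) (n : ℕ) : MilnorK K n →+ MilnorK K (n + 1) := (exists_cup (n := n) a).choose

theorem cup₁_symb (a : Kˣ) (n : ℕ) (v : Fin n → Kˣ) :
    cup₁ a n (symb v) = symb (Fin.cons a v : Fin (n + 1) → Kˣ) :=
  (exists_cup (n := n) a).choose_spec v

/-- Multiplication by a symbol of degree one. -/
def cup (a : Kˣ) : AddMonoid.End (GK K) :=
  AddMonoidHom.mk' (fun s n => match n with
    | 0 => 0
    | n + 1 => cup₁ a n (s n)) (by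
      intro s s'
      funext n
      cases n with
      | zero => exact (add_zero _).symm
      | succ n => exact map_add (cup₁ a n) _ _)

theorem cup_zero (a : Kˣ) (s : GK K) : cup a s 0 = 0 := rfl

theorem cup_succ (a : Kˣ) (s : GK K) (n : ℕ) : cup a s (n + 1) = cup₁ a n (s n) := rfl

theorem hom_ext {n : ℕ} {H : Type*} [AddCommGroup H] {f g : MilnorK K n →+ H}
    (h : ∀ v, f (symb v) = g (symb v)) : f = g := by
  ext z
  have h1 : z ∈ AddMonoidHom.eqLocus f g := mem_of_symb_mem _ (fun a => h a) z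
  exact h1

theorem cup_mul (a b : Kˣ) : cup (a * b) = cup a + cup b := by
  ext s n
  cases n with
  | zero => exact (add_zero _).symm
  | succ n =>
    have h : cup₁ (a * b) n = cup₁ a n + cup₁ b n := hom_ext fun v => by
      rw [AddMonoidHom.add_apply, cup₁_symb, cup₁_symb, cup₁_symb, symb_cons_mul]
    change cup₁ (a * b) n (s n) = cup₁ a n (s n) + cup₁ b n (s n)
    rw [h, AddMonoidHom.add_apply]

theorem cup_comm (a b : Kˣ) : cup a * cup b = -(cup b * cup a) := by
  ext s n
  cases n with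
  | zero => exact neg_zero.symm
  | succ n =>
    cases n with
    | zero =>
      change cup₁ a 0 0 = -(cup₁ b 0 0)
      rw [map_zero, map_zero, neg_zero]
    | succ n =>
      have h : (cup₁ a (n + 1)).comp (cup₁ b n) = -(cup₁ b (n + 1)).comp (cup₁ a n) :=
        hom_ext fun v => by
          rw [AddMonoidHom.neg_apply, AddMonoidHom.comp_apply, AddMonoidHom.comp_apply, cup₁_symb,
            cup₁_symb, cup₁_symb, cup₁_symb, symb_swap]
      exact DFunLike.congr_fun h (s n)

theorem cup_steinberg (a b : Kˣ) (h : (a : K) + b = 1) : cup a * cup b = 0 := by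
  ext s n
  cases n with
  | zero => rfl
  | succ n =>
    cases n with
    | zero =>
      change cup₁ a 0 0 = 0
      rw [map_zero]
    | succ n =>
      have h : (cup₁ a (n + 1)).comp (cup₁ b n) = 0 :=
        hom_ext fun v => by
          rw [AddMonoidHom.comp_apply, cup₁_symb, cup₁_symb]
          have h01 : (0 : Fin (n + 2)) ≠ 1 := by
            intro h
            have := congrArg Fin.val h
            simp at this
          exact symb_steinberg _ 0 1 h01 h
      exact DFunLike.congr_fun h (s n)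

theorem cup_one : cup (1 : Kˣ) = 0 := by
  have h := cup_mul (1 : Kˣ) 1
  rw [mul_one] at h
  exact left_eq_add.1 h

theorem cup_neg (a : Kˣ) : cup (-a) = cup (-1) + cup a := by
  rw [← cup_mul, neg_one_mul]

theorem cup_neg_one_two : cup (-1 : Kˣ) + cup (-1) = 0 := by
  rw [← cup_mul, neg_mul_neg, mul_one, cup_one]

theorem cup_neg_self (a : Kˣ) : cup a * cup (-a) = 0 := by
  ext s n
  cases n with
  | zero => rfl
  | succ n =>
    cases n with
    | zero =>
      change cup₁ a 0 0 = 0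
      rw [map_zero]
    | succ n =>
      have h : (cup₁ a (n + 1)).comp (cup₁ (-a) n) = 0 :=
        hom_ext fun v => by
          rw [AddMonoidHom.comp_apply, cup₁_symb, cup₁_symb]
          exact symb_neg_self a v
      exact DFunLike.congr_fun h (s n)

/-- The unit element. -/
def oneG : GK K := Pi.single 0 (symb Fin.elim0)

theorem prod_cup (n : ℕ) (v : Fin n → Kˣ) :
    (List.ofFn fun i => cup (v i)).prod (oneG (K := K)) n = symb v := by
  induction n with
  | zero =>
    have h : v = Fin.elim0 := funext fun i => i.elim0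
    rw [h]
    rfl
  | succ n ih =>
    rw [List.ofFn_succ, List.prod_cons]
    change cup (v 0) ((List.ofFn fun i : Fin n => cup (v i.succ)).prod oneG) (n + 1) = _
    rw [cup_succ, ih (fun i => v i.succ), cup₁_symb]
    congr 1
    exact Fin.cons_self_tail v

end graded

section valuation

variable {A : Type u} [CommRing A] [IsDomain A] [IsNoetherianRing A] (F : Type u) [Field F]
  [Algebra A F] [IsFractionRing A F] (P : PrimeSpectrum A) {q : A} (hq0 : q ≠ 0)
  (hq : P.asIdeal = Ideal.span {q})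

omit [IsDomain A] [IsNoetherianRing A] in
theorem isClass_unique {a : Fˣ} {b b' : (Gersten.kappa P)ˣ} (h : IsClass F P a b)
    (h' : IsClass F P a b') : b = b' := by
  obtain ⟨r, s, hr, hs, h1, h2⟩ := h
  obtain ⟨r', s', hr', hs', h1', h2'⟩ := h'
  have h3 : r * s' = r' * s := by
    apply IsFractionRing.injective A F
    rw [map_mul, map_mul, ← h1, ← h1']
    ring
  have h4 : Gersten.toKappa P s ≠ 0 := by rw [Ne, toKappa_eq_zero_iff]; exact hs
  have h4' : Gersten.toKappa P s' ≠ 0 := by rw [Ne, toKappa_eq_zero_iff]; exact hs'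
  ext
  apply mul_right_cancel₀ (mul_ne_zero h4 h4')
  have h5 := congrArg (Gersten.toKappa P) h3
  rw [map_mul, map_mul, ← h2, ← h2'] at h5
  linear_combination h5

include hq in
omit [IsNoetherianRing A] in
/-- A positive power of the generator is not a unit. -/
theorem not_isClass_pow (i : ℕ) (hi : i ≠ 0) (b : (Gersten.kappa P)ˣ) :
    ¬ IsClass F P (el F q hq0 ^ i) b := by
  rintro ⟨r, s, hr, hs, h1, -⟩
  apply hr
  have h2 : q ^ i * s = r := by
    apply IsFractionRing.injective A F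
    rw [map_mul, map_pow, ← h1, Units.val_pow_eq_pow_val]
    rfl
  rw [← h2]
  refine Ideal.mul_mem_right _ _ (Ideal.pow_mem_of_mem _ ?_ _ (Nat.pos_of_ne_zero hi))
  rw [hq]
  exact Ideal.mem_span_singleton_self _

include hq in
omit [IsNoetherianRing A] in
theorem eq_zero_of_isClass_zpow (i : ℤ) (b : (Gersten.kappa P)ˣ)
    (h : IsClass F P (el F q hq0 ^ i) b) : i = 0 := by
  by_contra hi
  obtain ⟨j, rfl | rfl⟩ := Int.eq_nat_or_neg i
  · rw [zpow_natCast] at h
    exact not_isClass_pow F P hq0 hq j (fun h => hi (by rw [h]; rfl)) b h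
  · have h1 := isClass_inv h
    rw [zpow_neg, inv_inv, zpow_natCast] at h1
    exact not_isClass_pow F P hq0 hq j (fun h => hi (by rw [h]; rfl)) _ h1

include hq in
theorem exists_dec (a : Fˣ) : ∃ (k : ℤ) (b : (Gersten.kappa P)ˣ) (u : Fˣ), IsClass F P u b ∧
    a = el F q hq0 ^ k * u := by
  have hqp : Prime q := (Ideal.span_singleton_prime hq0).1 (hq ▸ P.2)
  obtain ⟨r, s, hr, hs, ha⟩ := exists_el' (A := A) a
  obtain ⟨i, r', hr', rfl⟩ := WfDvdMonoid.max_power_factor hr hqp.irreducible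
  obtain ⟨j, s', hs', rfl⟩ := WfDvdMonoid.max_power_factor hs hqp.irreducible
  have hr'' : r' ∉ P.asIdeal := by rw [hq, Ideal.mem_span_singleton]; exact hr'
  have hs'' : s' ∉ P.asIdeal := by rw [hq, Ideal.mem_span_singleton]; exact hs'
  refine ⟨(i : ℤ) - j, _, el F r' (ne_zero_of_notMem hr'') * (el F s' (ne_zero_of_notMem hs''))⁻¹,
    isClass_mul (isClass_el r' hr'') (isClass_inv (isClass_el s' hs'')), ?_⟩
  have e1 : el F (q ^ i * r') hr = el F q hq0 ^ (i : ℤ) * el F r' (ne_zero_of_notMem hr'') := by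
    ext
    rw [zpow_natCast, Units.val_mul, Units.val_pow_eq_pow_val]
    change algebraMap A F (q ^ i * r') = algebraMap A F q ^ i * algebraMap A F r'
    rw [map_mul, map_pow]
  have e2 : el F (q ^ j * s') hs = el F q hq0 ^ (j : ℤ) * el F s' (ne_zero_of_notMem hs'') := by
    ext
    rw [zpow_natCast, Units.val_mul, Units.val_pow_eq_pow_val]
    change algebraMap A F (q ^ j * s') = algebraMap A F q ^ j * algebraMap A F s'
    rw [map_mul, map_pow]
  rw [ha, e1, e2, zpow_sub, mul_inv]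
  ac_rfl

/-- The valuation. -/
def vl (a : Fˣ) : ℤ := (exists_dec F P hq0 hq a).choose

/-- The class of the unit part. -/
def cl (a : Fˣ) : (Gersten.kappa P)ˣ := (exists_dec F P hq0 hq a).choose_spec.choose

theorem dec_spec (a : Fˣ) : ∃ u : Fˣ, IsClass F P u (cl F P hq0 hq a) ∧
    a = el F q hq0 ^ vl F P hq0 hq a * u :=
  (exists_dec F P hq0 hq a).choose_spec.choose_spec

theorem dec_unique {a : Fˣ} {k : ℤ} {b : (Gersten.kappa P)ˣ} {u : Fˣ} (h : IsClass F P u b)
    (ha : a = el F q hq0 ^ k * u) : vl F P hq0 hq a = k ∧ cl F P hq0 hq a = b := by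
  obtain ⟨u', h', ha'⟩ := dec_spec F P hq0 hq a
  have e : el F q hq0 ^ vl F P hq0 hq a * u' = el F q hq0 ^ k * u := ha'.symm.trans ha
  have h1 : el F q hq0 ^ (vl F P hq0 hq a - k) = u * u'⁻¹ := by
    calc el F q hq0 ^ (vl F P hq0 hq a - k)
        = (el F q hq0 ^ vl F P hq0 hq a * u') * u'⁻¹ * (el F q hq0 ^ k)⁻¹ := by
          rw [mul_inv_cancel_right, zpow_sub]
      _ = u * u'⁻¹ := by
          rw [e, mul_comm (_ ^ k) u, mul_right_comm, mul_inv_cancel_right]
  have h2 : vl F P hq0 hq a - k = 0 := by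
    apply eq_zero_of_isClass_zpow F P hq0 hq _ (b * (cl F P hq0 hq a)⁻¹)
    rw [h1]
    exact isClass_mul h (isClass_inv h')
  have h3 : vl F P hq0 hq a = k := sub_eq_zero.1 h2
  refine ⟨h3, ?_⟩
  rw [h2, zpow_zero] at h1
  have h4 : u = u' := by
    rw [eq_comm, mul_inv_eq_one] at h1
    exact h1
  rw [← h4] at h'
  exact isClass_unique F P h' h

theorem vl_cl_mul (a b : Fˣ) : vl F P hq0 hq (a * b) = vl F P hq0 hq a + vl F P hq0 hq b ∧
    cl F P hq0 hq (a * b) = cl F P hq0 hq a * cl F P hq0 hq b := by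
  obtain ⟨u, h, ha⟩ := dec_spec F P hq0 hq a
  obtain ⟨u', h', hb⟩ := dec_spec F P hq0 hq b
  refine dec_unique F P hq0 hq (isClass_mul h h') ?_
  conv_lhs => rw [ha, hb]
  rw [zpow_add]
  exact mul_mul_mul_comm _ _ _ _

theorem vl_cl_unit {a : Fˣ} {b : (Gersten.kappa P)ˣ} (h : IsClass F P a b) :
    vl F P hq0 hq a = 0 ∧ cl F P hq0 hq a = b :=
  dec_unique F P hq0 hq h (by rw [zpow_zero, one_mul])

theorem vl_cl_neg (a : Fˣ) : vl F P hq0 hq (-a) = vl F P hq0 hq a ∧
    cl F P hq0 hq (-a) = - cl F P hq0 hq a := by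
  obtain ⟨h1, h2⟩ := vl_cl_unit F P hq0 hq (isClass_neg_one (F := F) (P := P))
  obtain ⟨h3, h4⟩ := vl_cl_mul F P hq0 hq (-1) a
  rw [neg_one_mul] at h3 h4
  rw [h3, h4, h1, h2, zero_add, neg_one_mul]
  exact ⟨rfl, rfl⟩

theorem vl_cl_inv (a : Fˣ) : vl F P hq0 hq a⁻¹ = - vl F P hq0 hq a ∧
    cl F P hq0 hq a⁻¹ = (cl F P hq0 hq a)⁻¹ := by
  obtain ⟨h1, h2⟩ := vl_cl_unit F P hq0 hq (isClass_one (F := F) (P := P))
  obtain ⟨h3, h4⟩ := vl_cl_mul F P hq0 hq a⁻¹ a
  rw [inv_mul_cancel] at h3 h4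
  rw [h1] at h3
  rw [h2] at h4
  exact ⟨by omega, (inv_eq_of_mul_eq_one_left h4.symm).symm⟩

theorem pos_case {a b : Fˣ} (hab : (a : F) + b = 1) (ha : 0 < vl F P hq0 hq a) :
    vl F P hq0 hq b = 0 ∧ cl F P hq0 hq b = 1 := by
  obtain ⟨u, ⟨r, s, hr, hs, h1, -⟩, hu⟩ := dec_spec F P hq0 hq a
  obtain ⟨i, hi⟩ := Int.eq_ofNat_of_zero_le ha.le
  have hi0 : 0 < i := by omega
  have hmem : q ^ i * r ∈ P.asIdeal := by
    refine Ideal.mul_mem_right _ _ (Ideal.pow_mem_of_mem _ ?_ _ hi0)
    rw [hq]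
    exact Ideal.mem_span_singleton_self _
  refine vl_cl_unit F P hq0 hq ⟨s - q ^ i * r, s, fun h => ?_, hs, ?_, ?_⟩
  · have h2 := add_mem h hmem
    rw [sub_add_cancel] at h2
    exact hs h2
  · have h2 : (a : F) = algebraMap A F q ^ i * u := by
      have h3 := congrArg Units.val hu
      rw [hi, zpow_natCast, Units.val_mul, Units.val_pow_eq_pow_val] at h3
      exact h3
    rw [map_sub, map_mul, map_pow, ← h1]
    linear_combination (algebraMap A F s) * hab - (algebraMap A F s) * h2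
  · rw [map_sub, (toKappa_eq_zero_iff P _).2 hmem, sub_zero, Units.val_one, one_mul]

theorem neg_case {a b : Fˣ} (hab : (a : F) + b = 1) (hb : vl F P hq0 hq b < 0) :
    vl F P hq0 hq a = vl F P hq0 hq b ∧ cl F P hq0 hq b = - cl F P hq0 hq a := by
  obtain ⟨h1, h2⟩ := vl_cl_inv F P hq0 hq b
  obtain ⟨h3, h4⟩ := vl_cl_mul F P hq0 hq a b⁻¹
  obtain ⟨h5, h6⟩ := vl_cl_neg F P hq0 hq (a * b⁻¹)
  obtain ⟨h7, h8⟩ := pos_case F P hq0 hq (a := b⁻¹) (b := -(a * b⁻¹)) (by
    rw [Units.val_neg, Units.val_mul]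
    have h9 : (b : F) * ((b⁻¹ : Fˣ) : F) = 1 := Units.mul_inv b
    linear_combination (-((b⁻¹ : Fˣ) : F)) * hab + h9) (by rw [h1]; omega)
  refine ⟨by omega, ?_⟩
  rw [h6, h4, h2] at h8
  have h9 : cl F P hq0 hq a * (cl F P hq0 hq b)⁻¹ = -1 := by
    rw [← h8, neg_neg]
  rw [mul_inv_eq_iff_eq_mul] at h9
  rw [h9, neg_one_mul, neg_neg]

theorem zero_case {a b : Fˣ} (hab : (a : F) + b = 1) (ha : vl F P hq0 hq a = 0)
    (hb : vl F P hq0 hq b = 0) :
    (cl F P hq0 hq a : Gersten.kappa P) + cl F P hq0 hq b = 1 := by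
  obtain ⟨u, ⟨r, s, hr, hs, h1, h2⟩, hu⟩ := dec_spec F P hq0 hq a
  obtain ⟨u', ⟨r', s', hr', hs', h1', h2'⟩, hu'⟩ := dec_spec F P hq0 hq b
  rw [ha, zpow_zero, one_mul] at hu
  rw [hb, zpow_zero, one_mul] at hu'
  rw [← hu] at h1
  rw [← hu'] at h1'
  have h3 : r * s' + r' * s = s * s' := by
    apply IsFractionRing.injective A F
    rw [map_add, map_mul, map_mul, map_mul, ← h1, ← h1']
    linear_combination (algebraMap A F s * algebraMap A F s') * hab
  have h4 : Gersten.toKappa P s ≠ 0 := by rw [Ne, toKappa_eq_zero_iff]; exact hs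
  have h4' : Gersten.toKappa P s' ≠ 0 := by rw [Ne, toKappa_eq_zero_iff]; exact hs'
  apply mul_right_cancel₀ (mul_ne_zero h4 h4')
  have h5 := congrArg (Gersten.toKappa P) h3
  rw [map_add, map_mul, map_mul, map_mul, ← h2, ← h2'] at h5
  linear_combination h5

/-- The matrix of an element. -/
def TT (a : Fˣ) : Matrix (Fin 2) (Fin 2) (AddMonoid.End (GK (Gersten.kappa P))) :=
  TM (vl F P hq0 hq a) (cup (cl F P hq0 hq a)) (cup (-1))

theorem TT_mul (a b : Fˣ) : TT F P hq0 hq (a * b) = TT F P hq0 hq a + TT F P hq0 hq b := by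
  obtain ⟨h1, h2⟩ := vl_cl_mul F P hq0 hq a b
  rw [TT, h1, h2, cup_mul, TM_add]
  rfl

theorem TT_anti (a b : Fˣ) :
    TT F P hq0 hq a * TT F P hq0 hq b = -(TT F P hq0 hq b * TT F P hq0 hq a) :=
  TM_anti _ _ _ _ _ (cup_comm _ _) (cup_comm _ _) (cup_comm _ _) cup_neg_one_two

theorem TT_steinberg (a b : Fˣ) (hab : (a : F) + b = 1) :
    TT F P hq0 hq a * TT F P hq0 hq b = 0 := by
  have hba : (b : F) + a = 1 := by rw [add_comm]; exact hab
  rcases lt_trichotomy (vl F P hq0 hq b) 0 with hb | hb | hb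
  · obtain ⟨h1, h2⟩ := neg_case F P hq0 hq hab hb
    rw [TT, TT, h1]
    refine TM_case _ _ _ _ ?_ ?_ (cup_comm _ _) cup_neg_one_two
    · rw [h2, cup_neg_self]
    · rw [h2, cup_neg]
  · rcases lt_trichotomy (vl F P hq0 hq a) 0 with ha | ha | ha
    · obtain ⟨h1, -⟩ := neg_case F P hq0 hq hba ha
      omega
    · have h1 := cup_steinberg _ _ (zero_case F P hq0 hq hab ha hb)
      rw [TT, TT, ha, hb, TM, TM, Matrix.mul_fin_two]
      refine Matrix.ext fun i j => ?_
      fin_cases i <;> fin_cases j <;> simp [h1]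
      exact (neg_mul_neg _ _).trans h1
    · obtain ⟨h1, h2⟩ := pos_case F P hq0 hq hab ha
      rw [TT, TT, h1, h2, cup_one, TM_zero, mul_zero]
  · obtain ⟨h1, h2⟩ := pos_case F P hq0 hq hba hb
    rw [TT, TT, h1, h2, cup_one, TM_zero, zero_mul]

/-- The residue homomorphism. -/
theorem exists_res (n : ℕ) : ∃ D : MilnorK F (n + 1) →+ MilnorK (Gersten.kappa P) n,
    ∀ a, D (symb a) = (List.ofFn fun i => TT F P hq0 hq (a i)).prod 1 0 oneG n := by
  refine exists_hom (fun a => (List.ofFn fun i => TT F P hq0 hq (a i)).prod 1 0 oneG n) ?_ ?_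
  · intro a i b c
    have h1 : ∀ b, (fun j => TT F P hq0 hq (update a i b j)) =
        update (fun j => TT F P hq0 hq (a j)) i (TT F P hq0 hq b) := by
      intro b
      funext j
      by_cases hj : j = i
      · subst hj
        rw [update_self, update_self]
      · rw [update_of_ne hj, update_of_ne hj]
    have h2 := (MultilinearMap.mkPiAlgebraFin ℤ (n + 1)
      (Matrix (Fin 2) (Fin 2) (AddMonoid.End (GK (Gersten.kappa P))))).map_update_add
      (fun j => TT F P hq0 hq (a j)) i (TT F P hq0 hq b) (TT F P hq0 hq c)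
    rw [MultilinearMap.mkPiAlgebraFin_apply, MultilinearMap.mkPiAlgebraFin_apply,
      MultilinearMap.mkPiAlgebraFin_apply] at h2
    rw [h1, h1, h1, TT_mul, h2]
    rfl
  · intro a i j hij h
    rw [prod_ofFn_eq_zero (n + 1) (fun i => TT F P hq0 hq (a i))
      (fun i j => TT_anti F P hq0 hq _ _) i j hij (TT_steinberg F P hq0 hq _ _ h)]
    rfl

theorem TT_units {n : ℕ} {u : Fin n → Fˣ} {v : Fin n → (Gersten.kappa P)ˣ}
    (h : ∀ i, IsClass F P (u i) (v i)) :
    (List.ofFn fun i => TT F P hq0 hq (u i)).prod 0 0 = (List.ofFn fun i => cup (v i)).prod ∧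
      (List.ofFn fun i => TT F P hq0 hq (u i)).prod 1 0 = 0 := by
  have h1 : (fun i => TT F P hq0 hq (u i)) = fun i => TM 0 (cup (v i)) (cup (-1)) := by
    funext i
    obtain ⟨h1, h2⟩ := vl_cl_unit F P hq0 hq (h i)
    rw [TT, h1, h2]
  rw [h1]
  exact TM_prod n _ _

theorem resRel_le (n : ℕ) {D : MilnorK F (n + 1) →+ MilnorK (Gersten.kappa P) n}
    (hD : ∀ a, D (symb a) = (List.ofFn fun i => TT F P hq0 hq (a i)).prod 1 0 oneG n)
    {z : MilnorK F (n + 1) × MilnorK (Gersten.kappa P) n} (hz : z ∈ resRel F P n) :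
    D z.1 = z.2 := by
  have h1 : resRel F P n ≤ (D.comp (AddMonoidHom.fst _ _)).eqLocus (AddMonoidHom.snd _ _) := by
    rw [resRel, AddSubgroup.closure_le]
    rintro _ (⟨p, q', u, v, hP, hp, hu, rfl⟩ | ⟨u, v, hu, rfl⟩)
    · change D (symb (Fin.cons p u)) = symb v
      obtain ⟨w, hw⟩ := (Ideal.span_singleton_eq_span_singleton).1 (hq.symm.trans hP)
      have hwP : (w : A) ∉ P.asIdeal := fun h =>
        P.2.ne_top (Ideal.eq_top_of_isUnit_mem _ h w.isUnit)
      obtain ⟨h1, -⟩ := dec_unique F P hq0 hq (a := p) (k := 1) (isClass_el (F := F) (w : A) hwP) (by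
        ext
        rw [zpow_one, hp, ← hw, map_mul]
        rfl)
      obtain ⟨h2, h3⟩ := TT_units F P hq0 hq hu
      rw [hD, List.ofFn_succ, List.prod_cons, Matrix.mul_apply, Fin.sum_univ_two]
      simp only [Fin.cons_zero, Fin.cons_succ]
      rw [h2, h3, mul_zero, add_zero, TT, h1]
      have h4 : TM (1 : ℤ) (cup (cl F P hq0 hq p)) (cup (-1)) 1 0 = 1 := by
        simp [TM]
      rw [h4, one_mul, prod_cup]
    · change D (symb u) = 0
      rw [hD, (TT_units F P hq0 hq hu).2]
      rfl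
  exact h1 hz

include hq0 hq in
/-- Each element has exactly one residue. -/
theorem existsUnique_res (n : ℕ) (z : MilnorK F (n + 1)) : ∃! r, (z, r) ∈ resRel F P n := by
  obtain ⟨r, hr⟩ := resRel_total (F := F) P hq0 hq n z
  obtain ⟨D, hD⟩ := exists_res F P hq0 hq n
  refine ⟨r, hr, fun r' hr' => ?_⟩
  have h1 : D z = r := resRel_le F P hq0 hq n hD hr
  have h2 : D z = r' := resRel_le F P hq0 hq n hD hr'
  exact h2.symm.trans h1

end valuation

end

end Vale.Agent.P178.Two
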