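import Vale.Agent.P178.Two.Reg

/-!
Independence of the regular system of parameters.
-/

namespace Vale.Agent.P178.Two

open IsLocalRing Vale.Agent.P178.Gersten Function

universe u

noncomputable section

variable {A : Type u} [CommRing A] [IsDomain A] [IsLocalRing A] [IsNoetherianRing A]
  (F : Type u) [Field F] [Algebra A F] [IsFractionRing A F]
  (hprin : ∀ Q : Pt A 1, ∃ q : A, q ≠ 0 ∧ Q.P.asIdeal = Ideal.span {q})

include hprin in
/-- A unit multiple of the second parameter modulo the first one. -/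
theorem Psi_mul {x : A} (X : Pt A 1) (hX : X.P.asIdeal = Ideal.span {x}) (hx0 : x ≠ 0)
    (t t' : (Gersten.kappa X.P)ˣ) (b : Aˣ) (h : t' = ku X.P b * t) {m : ℕ} (u : Fin m → Aˣ) :
    Psi F X t' (fun j => ku X.P (u j)) = Psi F X t (fun j => ku X.P (u j)) := by
  classical
  have h5 := unit_boundary F hprin X hX hx0 (m + 1) (Fin.cons b u)
  have h6 : (fun i => ku X.P ((Fin.cons b u : Fin (m + 1) → Aˣ) i)) =
      (Fin.cons (ku X.P b) fun j => ku X.P (u j) : Fin (m + 1) → (Gersten.kappa X.P)ˣ) := by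
    funext j
    refine Fin.cases ?_ (fun j => ?_) j
    · rw [Fin.cons_zero, Fin.cons_zero]
    · rw [Fin.cons_succ, Fin.cons_succ]
  rw [h6] at h5
  rw [Psi_def, Psi_def, h, symb_cons_mul, DFinsupp.single_add, map_add]
  have h7 : QuotientAddGroup.mk' (Bd A F (m + 1)) (DFinsupp.single X
      (symb (Fin.cons (ku X.P b) fun j => ku X.P (u j)))) = 0 :=
    (QuotientAddGroup.eq_zero_iff _).2 h5
  rw [h7, zero_add]

include hprin in
/-- Exchanging the parameters. -/
theorem Psi_swap {x y : A} (X Y : Pt A 1) (hX : X.P.asIdeal = Ideal.span {x}) (hx0 : x ≠ 0)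
    (hY : Y.P.asIdeal = Ideal.span {y}) (hy0 : y ≠ 0) (hyX : y ∉ X.P.asIdeal)
    (hxY : x ∉ Y.P.asIdeal)
    (t : (Gersten.kappa X.P)ˣ) (ht : (t : Gersten.kappa X.P) = Gersten.toKappa X.P y)
    (s : (Gersten.kappa Y.P)ˣ) (hs : (s : Gersten.kappa Y.P) = Gersten.toKappa Y.P x)
    {m : ℕ} (u : Fin m → Aˣ) :
    Psi F X t (fun j => ku X.P (u j)) = Psi F Y s (fun j => ku Y.P (u j)) := by
  classical
  have hXY : X ≠ Y := by
    rintro rfl
    exact hyX (by rw [hY]; exact Ideal.mem_span_singleton_self _)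
  have hu : ∀ (Q : Pt A 1) (i : Fin m), (u i : A) ∉ Q.P.asIdeal := fun Q i h =>
    Q.P.2.ne_top (Ideal.eq_top_of_isUnit_mem _ h (u i).isUnit)
  let U : Fin m → Fˣ := fun i => el F (u i : A) (u i).ne_zero
  have hU : ∀ (Q : Pt A 1) (i : Fin m), IsClass F Q.P (U i) (ku Q.P (u i)) := fun Q i => by
    have h1 := isClass_el (F := F) (u i : A) (hu Q i)
    have h2 : kp Q.P (u i : A) (hu Q i) = ku Q.P (u i) := Units.ext rfl
    rw [h2] at h1
    exact h1
  let z : MilnorK F (m + 1 + 1) :=
    symb (Fin.cons (el F x hx0) (Fin.cons (el F y hy0) U : Fin (m + 1) → Fˣ))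
  let w : Fam A (m + 1) := DFinsupp.single X (symb (Fin.cons t fun j => ku X.P (u j))) -
    DFinsupp.single Y (symb (Fin.cons s fun j => ku Y.P (u j)))
  have hw : w ∈ Bd A F (m + 1) := by
    refine AddSubgroup.subset_closure ⟨z, fun Q => ?_⟩
    by_cases hQX : Q = X
    · subst hQX
      have h1 : w Q = symb (Fin.cons t fun j => ku Q.P (u j)) := by
        simp only [w, DFinsupp.sub_apply, DFinsupp.single_eq_same,
          DFinsupp.single_eq_of_ne hXY, sub_zero]
      rw [h1]
      refine AddSubgroup.subset_closure (Or.inl ⟨el F x hx0, x, _, _, hX, rfl, fun i => ?_, rfl⟩)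
      refine Fin.cases ?_ (fun i => ?_) i
      · rw [Fin.cons_zero, Fin.cons_zero]
        have h2 : kp Q.P y hyX = t := Units.ext ht.symm
        have h3 := isClass_el (F := F) y hyX
        rw [h2] at h3
        exact h3
      · rw [Fin.cons_succ, Fin.cons_succ]
        exact hU Q i
    · by_cases hQY : Q = Y
      · subst hQY
        have h1 : w Q = - symb (Fin.cons s fun j => ku Q.P (u j)) := by
          simp only [w, DFinsupp.sub_apply, DFinsupp.single_eq_same,
            DFinsupp.single_eq_of_ne hQX, zero_sub]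
        have h0 : z = - symb (Fin.cons (el F y hy0)
            (Fin.cons (el F x hx0) U : Fin (m + 1) → Fˣ)) := by
          simp only [z]
          rw [symb_swap]
        rw [h1, h0]
        refine (resRel F Q.P (m + 1)).neg_mem (x := (symb (Fin.cons (el F y hy0)
            (Fin.cons (el F x hx0) U : Fin (m + 1) → Fˣ)),
            symb (Fin.cons s fun j => ku Q.P (u j)))) ?_
        refine AddSubgroup.subset_closure (Or.inl ⟨el F y hy0, y, _, _, hY, rfl, fun i => ?_, rfl⟩)
        refine Fin.cases ?_ (fun i => ?_) i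
        · rw [Fin.cons_zero, Fin.cons_zero]
          have h2 : kp Q.P x hxY = s := Units.ext hs.symm
          have h3 := isClass_el (F := F) x hxY
          rw [h2] at h3
          exact h3
        · rw [Fin.cons_succ, Fin.cons_succ]
          exact hU Q i
      · have h1 : w Q = 0 := by
          simp only [w, DFinsupp.sub_apply, DFinsupp.single_eq_of_ne hQX,
            DFinsupp.single_eq_of_ne hQY, sub_zero]
        rw [h1]
        have hxQ : x ∉ Q.P.asIdeal := by
          intro hmem
          exact hQX (pt_eq_of_le (by rw [hX]; exact (Ideal.span_singleton_le_iff_mem _).2 hmem)).symm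
        have hyQ : y ∉ Q.P.asIdeal := by
          intro hmem
          exact hQY (pt_eq_of_le (by rw [hY]; exact (Ideal.span_singleton_le_iff_mem _).2 hmem)).symm
        refine AddSubgroup.subset_closure (Or.inr ⟨_, Fin.cons (kp Q.P x hxQ)
          (Fin.cons (kp Q.P y hyQ) fun i => ku Q.P (u i)), fun i => ?_, rfl⟩)
        refine Fin.cases ?_ (fun i => Fin.cases ?_ (fun i => ?_) i) i
        · exact isClass_el x hxQ
        · exact isClass_el y hyQ
        · exact hU Q i
  rw [← sub_eq_zero, Psi_def, Psi_def, ← map_sub]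
  exact (QuotientAddGroup.eq_zero_iff _).2 hw

end

noncomputable section

variable {A : Type u} [CommRing A] [IsRegularLocalRing A] (F : Type u) [Field F] [Algebra A F]
  [IsFractionRing A F] (hdim : ringKrullDim A = 2)

omit [IsRegularLocalRing A] in
theorem one_notMem [IsLocalRing A] : (1 : A) ∉ maximalIdeal A := fun h =>
  (maximalIdeal.isMaximal A).ne_top ((Ideal.eq_top_iff_one _).2 h)

include hdim in
theorem exists_unit_coeff {x y y' : A} (hxy : maximalIdeal A = Ideal.span {x, y})
    (hxy' : maximalIdeal A = Ideal.span {x, y'}) : ∃ b : Aˣ, y' - b * y ∈ Ideal.span {x} := by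
  have hy' : y' ∈ Ideal.span {x, y} := by
    rw [← hxy, hxy']; exact Ideal.subset_span (by simp)
  obtain ⟨α, β, h⟩ := Ideal.mem_span_pair.1 hy'
  by_cases hβ : IsUnit β
  · obtain ⟨β, rfl⟩ := hβ
    refine ⟨β, ?_⟩
    have h1 : y' - β * y = α * x := by rw [← h]; ring
    rw [h1]
    exact Ideal.mul_mem_left _ _ (Ideal.mem_span_singleton_self _)
  · exfalso
    have hβm : β ∈ maximalIdeal A := hβ
    rw [hxy'] at hβm
    obtain ⟨γ, δ, h2⟩ := Ideal.mem_span_pair.1 hβm
    obtain ⟨hp, -, -, hy'x, -⟩ := param hdim hxy'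
    have h3 : y' * (1 - δ * y) = (α + γ * y) * x := by linear_combination -h - y * h2
    have h4 : y' * (1 - δ * y) ∈ Ideal.span {x} := by
      rw [h3]
      exact Ideal.mul_mem_left _ _ (Ideal.mem_span_singleton_self _)
    have h5 : 1 - δ * y ∈ Ideal.span {x} := (hp.mem_or_mem h4).resolve_left hy'x
    have hxm : x ∈ maximalIdeal A := by rw [hxy]; exact Ideal.subset_span (by simp)
    have hym : y ∈ maximalIdeal A := by rw [hxy]; exact Ideal.subset_span (by simp)
    have h6 : 1 - δ * y ∈ maximalIdeal A := (Ideal.span_singleton_le_iff_mem _).2 hxm h5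
    have h7 := add_mem h6 (Ideal.mul_mem_left _ δ hym)
    rw [sub_add_cancel] at h7
    exact one_notMem h7

include hdim in
theorem Psi_same {x y y' : A} (hxy : maximalIdeal A = Ideal.span {x, y})
    (hxy' : maximalIdeal A = Ideal.span {x, y'}) (X : Pt A 1) (hX : X.P.asIdeal = Ideal.span {x})
    (t t' : (Gersten.kappa X.P)ˣ) (ht : (t : Gersten.kappa X.P) = Gersten.toKappa X.P y)
    (ht' : (t' : Gersten.kappa X.P) = Gersten.toKappa X.P y') {m : ℕ} (u : Fin m → Aˣ) :
    Psi F X t (fun j => ku X.P (u j)) = Psi F X t' (fun j => ku X.P (u j)) := by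
  have : IsDomain A := isDomain_of_isRegularLocalRing A
  obtain ⟨b, hb⟩ := exists_unit_coeff hdim hxy hxy'
  obtain ⟨-, -, hx0, -⟩ := param hdim hxy
  refine (Psi_mul F (hprin_of_regular hdim) X hX hx0 t t' b (Units.ext ?_) u).symm
  rw [← hX, ← toKappa_eq_zero_iff, map_sub, sub_eq_zero, map_mul] at hb
  rw [ht', hb, Units.val_mul, ht]
  rfl

include hdim in
theorem Psi_eq {x y x' y' : A} (hxy : maximalIdeal A = Ideal.span {x, y})
    (hxy' : maximalIdeal A = Ideal.span {x', y'}) (X X' : Pt A 1)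
    (hX : X.P.asIdeal = Ideal.span {x}) (hX' : X'.P.asIdeal = Ideal.span {x'})
    (t : (Gersten.kappa X.P)ˣ) (ht : (t : Gersten.kappa X.P) = Gersten.toKappa X.P y)
    (t' : (Gersten.kappa X'.P)ˣ) (ht' : (t' : Gersten.kappa X'.P) = Gersten.toKappa X'.P y')
    {m : ℕ} (u : Fin m → Aˣ) :
    Psi F X t (fun j => ku X.P (u j)) = Psi F X' t' (fun j => ku X'.P (u j)) := by
  have : IsDomain A := isDomain_of_isRegularLocalRing A
  have hprin := hprin_of_regular hdim
  have hswap : ∀ {x y : A} (_ : maximalIdeal A = Ideal.span {x, y}) (X Y : Pt A 1)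
      (_ : X.P.asIdeal = Ideal.span {x}) (_ : Y.P.asIdeal = Ideal.span {y})
      (t : (Gersten.kappa X.P)ˣ) (_ : (t : Gersten.kappa X.P) = Gersten.toKappa X.P y)
      (s : (Gersten.kappa Y.P)ˣ) (_ : (s : Gersten.kappa Y.P) = Gersten.toKappa Y.P x),
      Psi F X t (fun j => ku X.P (u j)) = Psi F Y s (fun j => ku Y.P (u j)) := by
    intro x y hxy X Y hX hY t ht s hs
    have hyx : maximalIdeal A = Ideal.span {y, x} := by rw [hxy, Set.pair_comm]
    obtain ⟨-, -, hx0, hyX, -⟩ := param hdim hxy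
    obtain ⟨-, -, hy0, hxY, -⟩ := param hdim hyx
    exact Psi_swap F hprin X Y hX hx0 hY hy0 (by rw [hX]; exact hyX) (by rw [hY]; exact hxY)
      t ht s hs u
  have hpt : ∀ {x y : A} (_ : maximalIdeal A = Ideal.span {x, y}),
      ∃ X : Pt A 1, X.P.asIdeal = Ideal.span {x} := by
    intro x y hxy
    obtain ⟨hp, hht, -⟩ := param hdim hxy
    exact ⟨⟨⟨_, hp⟩, hht⟩, rfl⟩
  have hu : ∀ {x y : A} (_ : maximalIdeal A = Ideal.span {x, y}) (X : Pt A 1)
      (_ : X.P.asIdeal = Ideal.span {x}),
      ∃ t : (Gersten.kappa X.P)ˣ, (t : Gersten.kappa X.P) = Gersten.toKappa X.P y := by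
    intro x y hxy X hX
    obtain ⟨-, -, -, hyx, -⟩ := param hdim hxy
    exact ⟨kp X.P y (by rw [hX]; exact hyx), rfl⟩
  have hx'm : x' ∈ Ideal.span {x, y} := by
    rw [← hxy, hxy']; exact Ideal.subset_span (by simp)
  obtain ⟨α, β, h⟩ := Ideal.mem_span_pair.1 hx'm
  have hxm : x ∈ maximalIdeal A := by rw [hxy]; exact Ideal.subset_span (by simp)
  have hym : y ∈ maximalIdeal A := by rw [hxy]; exact Ideal.subset_span (by simp)
  by_cases hβ : IsUnit β
  · -- the pair `x, x'`
    obtain ⟨β, rfl⟩ := hβ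
    have hxx' : maximalIdeal A = Ideal.span {x, x'} := by
      apply le_antisymm
      · rw [hxy, Ideal.span_le]
        have h1 : x ∈ Ideal.span {x, x'} := Ideal.subset_span (by simp)
        have h2 : x' ∈ Ideal.span {x, x'} := Ideal.subset_span (by simp)
        rintro c (rfl | rfl)
        · exact h1
        · have h3 : c = ((β⁻¹ : Aˣ) : A) * (x' - α * x) := by
            rw [← h, add_sub_cancel_left, Units.inv_mul_cancel_left]
          rw [h3]
          exact Ideal.mul_mem_left _ _ (sub_mem h2 (Ideal.mul_mem_left _ _ h1))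
      · rw [Ideal.span_le]
        rintro c (rfl | rfl)
        · exact hxm
        · rw [hxy]; exact hx'm
    have hx'x : maximalIdeal A = Ideal.span {x', x} := by rw [hxx', Set.pair_comm]
    obtain ⟨t₁, ht₁⟩ := hu hxx' X hX
    obtain ⟨t₂, ht₂⟩ := hu hx'x X' hX'
    rw [Psi_same F hdim hxy hxx' X hX t t₁ ht ht₁ u, hswap hxx' X X' hX hX' t₁ ht₁ t₂ ht₂,
      Psi_same F hdim hx'x hxy' X' hX' t₂ t' ht₂ ht' u]
  · by_cases hα : IsUnit α
    · -- the pair `y, x'`
      obtain ⟨α, rfl⟩ := hα
      have hyx : maximalIdeal A = Ideal.span {y, x} := by rw [hxy, Set.pair_comm]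
      have hyx' : maximalIdeal A = Ideal.span {y, x'} := by
        apply le_antisymm
        · rw [hxy, Ideal.span_le]
          have h1 : y ∈ Ideal.span {y, x'} := Ideal.subset_span (by simp)
          have h2 : x' ∈ Ideal.span {y, x'} := Ideal.subset_span (by simp)
          rintro c (rfl | rfl)
          · have h3 : c = ((α⁻¹ : Aˣ) : A) * (x' - β * y) := by
              rw [← h, add_sub_cancel_right, Units.inv_mul_cancel_left]
            rw [h3]
            exact Ideal.mul_mem_left _ _ (sub_mem h2 (Ideal.mul_mem_left _ _ h1))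
          · exact h1
        · rw [Ideal.span_le]
          rintro c (rfl | rfl)
          · exact hym
          · rw [hxy]; exact hx'm
      have hx'y : maximalIdeal A = Ideal.span {x', y} := by rw [hyx', Set.pair_comm]
      obtain ⟨Y, hY⟩ := hpt hyx
      obtain ⟨s, hs⟩ := hu hyx Y hY
      obtain ⟨s₁, hs₁⟩ := hu hyx' Y hY
      obtain ⟨t₂, ht₂⟩ := hu hx'y X' hX'
      rw [hswap hxy X Y hX hY t ht s hs, Psi_same F hdim hyx hyx' Y hY s s₁ hs hs₁ u,
        hswap hyx' Y X' hY hX' s₁ hs₁ t₂ ht₂, Psi_same F hdim hx'y hxy' X' hX' t₂ t' ht₂ ht' u]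
    · exfalso
      have hαm : α ∈ maximalIdeal A := hα
      have hβm : β ∈ maximalIdeal A := hβ
      rw [hxy'] at hαm hβm
      obtain ⟨a, b, h1⟩ := Ideal.mem_span_pair.1 hαm
      obtain ⟨c, d, h2⟩ := Ideal.mem_span_pair.1 hβm
      have hyx' : maximalIdeal A = Ideal.span {y', x'} := by rw [hxy', Set.pair_comm]
      obtain ⟨hp, -, -, hx'y', -⟩ := param hdim hyx'
      have h3 : x' * (1 - (a * x + c * y)) = (b * x + d * y) * y' := by
        linear_combination -h - x * h1 - y * h2
      have h4 : x' * (1 - (a * x + c * y)) ∈ Ideal.span {y'} := by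
        rw [h3]
        exact Ideal.mul_mem_left _ _ (Ideal.mem_span_singleton_self _)
      have h5 : 1 - (a * x + c * y) ∈ Ideal.span {y'} := (hp.mem_or_mem h4).resolve_left hx'y'
      have hy'm : y' ∈ maximalIdeal A := by rw [hxy']; exact Ideal.subset_span (by simp)
      have h6 : 1 - (a * x + c * y) ∈ maximalIdeal A :=
        (Ideal.span_singleton_le_iff_mem _).2 hy'm h5
      have h7 := add_mem h6 (add_mem (Ideal.mul_mem_left _ a hxm) (Ideal.mul_mem_left _ c hym))
      rw [sub_add_cancel] at h7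
      exact one_notMem h7

end

end Vale.Agent.P178.Two
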